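import Vale.Agent.P153.F.Plane
import Vale.Agent.P153.GFF.Interface

/-!
# P153, block F: the law of the absolute odd heights

`muT P` is the law of `2 φ + 2 k - 1`, `φ` with law `P`, `k` with counting measure.
-/

namespace Vale.Agent.P153.F

open Finset MeasureTheory Vale.Agent.P153

/-- Odd heights. -/
def odd (k : ℤ) (φ : Pt → ℤ) : Hg := fun x => 2 * φ x + 2 * k - 1

/-- The law of the absolute odd heights. -/
noncomputable def muT (P : Measure (Pt → ℤ)) : Measure Hg := Measure.sum fun k : ℤ => P.map (odd k)

theorem measurable_odd (k : ℤ) : Measurable (odd k) := by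
  refine measurable_pi_iff.2 fun x => ?_
  exact measurable_from_top (f := fun n : ℤ => 2 * n + 2 * k - 1).comp (measurable_pi_apply x)

/-- Half of an odd height. -/
def half (a : Hg) : Pt → ℤ := fun x => (a x + 1) / 2

theorem half_eq {a : Hg} (ha : ∀ x, Odd (a x)) (x : Pt) : 2 * half a x - 1 = a x := by
  obtain ⟨m, hm⟩ := ha x
  unfold half
  omega

theorem muT_cyl (P : Measure (Pt → ℤ)) {B : Finset Pt} (hB : B.Nonempty) {a : Hg}
    (ha : ∀ x, Odd (a x)) : muT P (Cyl B a) = P (GFF.Pat B (half a)) := by
  obtain ⟨x₀, hx₀⟩ := hB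
  have hU : GFF.Pat B (half a) = ⋃ k : ℤ, odd k ⁻¹' Cyl B a := by
    ext φ
    rw [Set.mem_iUnion]
    constructor
    · intro h
      refine ⟨half a x₀ - φ x₀, fun x hx => ?_⟩
      have h1 := h x hx x₀ hx₀
      have h2 := half_eq ha x
      unfold odd
      linarith
    · rintro ⟨k, hk⟩ x hx y hy
      have h1 := hk x hx
      have h2 := hk y hy
      have h3 := half_eq ha x
      have h4 := half_eq ha y
      unfold odd at h1 h2
      linarith
  rw [muT, Measure.sum_apply _ (measurable_cyl B a), hU, measure_iUnion]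
  · refine tsum_congr fun k => ?_
    rw [Measure.map_apply (measurable_odd k) (measurable_cyl B a)]
  · intro k k' hne
    rw [Function.onFun, Set.disjoint_left]
    intro φ h1 h2
    have e1 := h1 x₀ hx₀
    have e2 := h2 x₀ hx₀
    unfold odd at e1 e2
    exact hne (by linarith)
  · intro k
    exact measurable_odd k (measurable_cyl B a)

theorem adj_gff {x y : Pt} : GFF.Adj x y ↔ Adj x y := Iff.rfl

theorem muT_lip {P : Measure (Pt → ℤ)} (h : ∀ᵐ φ ∂P, ∀ x y, GFF.Adj x y → |φ x - φ y| ≤ 1) :
    ∀ᵐ h ∂muT P, Lip h := by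
  have hL : MeasurableSet {h : Hg | Lip h} := by
    have : {h : Hg | Lip h} = (⋂ x, {h : Hg | Odd (h x)}) ∩
        ⋂ x, ⋂ y, {h : Hg | Adj x y → |h x - h y| ≤ 2} := by
      ext h
      simp only [Lip, Set.mem_ofPred_eq, Set.mem_inter_iff, Set.mem_iInter]
    rw [this]
    refine (MeasurableSet.iInter fun x => ?_).inter
      (MeasurableSet.iInter fun x => MeasurableSet.iInter fun y => ?_)
    · have h1 : MeasurableSet {n : ℤ | Odd n} := trivial
      have h2 : Measurable fun h : Hg => h x := measurable_pi_apply x
      exact h2 h1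
    · by_cases hxy : Adj x y
      · simp only [hxy, true_imp_iff]
        have h1 : MeasurableSet {n : ℤ | |n| ≤ 2} := trivial
        have h2 : Measurable fun h : Hg => h x - h y :=
          (measurable_pi_apply x).sub (measurable_pi_apply y)
        exact h2 h1
      · simp only [hxy, false_imp_iff]
        exact MeasurableSet.univ
  rw [ae_iff, muT, Measure.sum_apply]
  · rw [ENNReal.tsum_eq_zero]
    intro k
    have h0 : {a : Hg | ¬ Lip a} = {h : Hg | Lip h}ᶜ := rfl
    rw [h0, Measure.map_apply (measurable_odd k) hL.compl]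
    refine measure_mono_null ?_ (ae_iff.1 h)
    intro φ hφ hcon
    apply hφ
    refine ⟨fun x => ⟨φ x + k - 1, by unfold odd; ring⟩, fun x y hxy => ?_⟩
    have h1 := hcon x y hxy
    have h2 : odd k φ x - odd k φ y = 2 * (φ x - φ y) := by
      unfold odd
      ring
    rw [h2, abs_mul]
    have h3 : |(2 : ℤ)| = 2 := rfl
    rw [h3]
    linarith
  · exact hL.compl

theorem half_sub {a : Hg} (ha : Lip a) {x y : Pt} (hxy : Adj x y) : |half a x - half a y| ≤ 1 := by
  have h1 := ha.2 x y hxy
  have h2 := half_eq ha.1 x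
  have h3 := half_eq ha.1 y
  rw [abs_le] at h1 ⊢
  omega

/-- The law of the absolute heights is a Gibbs measure. -/
theorem gb_muT {P : Measure (Pt → ℤ)} [IsProbabilityMeasure P]
    (hlip : ∀ᵐ φ ∂P, ∀ x y, GFF.Adj x y → |φ x - φ y| ≤ 1) (hG : GFF.Gibbs P) : Gb (muT P) := by
  refine ⟨muT_lip hlip, fun B a hB => ?_, fun L B a b hLB hN ha hb hab => ?_⟩
  · by_cases ha : ∀ x ∈ B, Odd (a x)
    · classical
      set a' : Hg := fun x => if x ∈ B then a x else 1 with ha'
      have h1 : Cyl B a = Cyl B a' := by
        ext h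
        constructor
        · intro hh x hx
          rw [hh x hx, ha']
          simp [hx]
        · intro hh x hx
          rw [hh x hx, ha']
          simp [hx]
      have h2 : ∀ x, Odd (a' x) := by
        intro x
        by_cases hx : x ∈ B
        · simp only [ha', hx, if_true]
          exact ha x hx
        · simp only [ha', hx, if_false]
          exact odd_one
      rw [h1, muT_cyl P hB h2]
      exact measure_ne_top P _
    · push Not at ha
      obtain ⟨x, hx, hodd⟩ := ha
      have h1 : muT P (Cyl B a) = 0 := by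
        refine measure_mono_null ?_ (ae_iff.1 (muT_lip hlip))
        intro h hh hl
        have h2 := hl.1 x
        rw [hh x hx] at h2
        exact hodd h2
      rw [h1]
      exact ENNReal.zero_ne_top
  · rcases B.eq_empty_or_nonempty with hB | hB
    · have h1 : Cyl B a = Cyl B b := by
        subst hB
        ext h
        simp [Cyl]
      rw [h1]
    · rw [muT_cyl P hB ha.1, muT_cyl P hB hb.1]
      refine hG L B (half a) (half b) hLB (fun x hx y hxy => hN x hx y hxy)
        (fun x _ y _ hxy => half_sub ha hxy) (fun x _ y _ hxy => half_sub hb hxy)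
        fun x _ hx => ?_
      unfold half
      rw [hab x hx]

theorem gb_of_plane {P : Measure (Pt → ℤ)} (hP : GFF.Plane P) : Gb (muT P) := by
  have := hP.prob
  exact gb_muT hP.lip hP.gibbs

end Vale.Agent.P153.F
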