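import Vale.Agent.P153.F.Key
import Vale.Agent.P153.F.X.Pos
import Vale.Agent.P153.F.X.LowExt
import Vale.Agent.P153.F.X.LogT
import Vale.Agent.P153.F.X.MomT
import Vale.Agent.P153.F.X.MmT
import Vale.Agent.P153.F.RSW.R1
import Vale.Agent.P153.F.RSW.AcT
import Vale.Agent.P153.F.Top.ConvK
import Vale.Agent.P153.F.Dom.Law
import Vale.Agent.P153.F.Dom.In
import Vale.Agent.P153.F.Dom.Out
import Vale.Agent.P153.F.Dom.Fld

/-!
P153-F: the scaling limit of the uniform Lipschitz heights in every Jordan domain.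
-/

namespace Vale.Agent.P153.F

open Filter Topology MeasureTheory
open Vale.Agent.P153.F.X

variable {Q : Measure A.Om} {κ' : ℝ}

/-- The probabilistic inputs of the X-level. -/
theorem lvl_of (hQ : A.IsQ Q) (hP : GFF.Plane (Q.map A.rc)) (hS : GFF.SpecOut (Q.map A.rc) κ')
    (hC : GFF.RowCLT (Q.map A.rc) κ') (hκ : 0 < κ') : Lvl (Q.map A.rc) := by
  have hint : S_int (Q.map A.rc) := s_int hP
  have hlow : S_low (Q.map A.rc) := s_low hP hint
  have hR := RSW.r1_ann hQ (RSW.AC.acT hP hS hC hκ)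
  exact
    { rsw := PosT.s_rsw hQ hint hR
      low := hlow
      ext := s_ext hP hint
      lowc := fun F Y Θ h1 h2 h3 h4 => s_lowc hP F Y Θ h1 h2 h3 h4
      mom := s_mom hP hS hlow hint
      mm := fun δ hδ hlim => s_mm hP hS hδ hlim
      momJ := momJ_of hP (logT hP hS hκ.le)
      pos := PosT.s_pos hQ hint hR }

/-- **Convergence in every Jordan domain.** -/
theorem jordan (hQ : A.IsQ Q) (hP : GFF.Plane (Q.map A.rc)) (hS : GFF.SpecOut (Q.map A.rc) κ')
    (hC : GFF.RowCLT (Q.map A.rc) κ') (hκ : 0 < κ') {D : Set (ℝ × ℝ)}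
    (hD : Dom.JordanDomain D) : Dom.Conv (4 * κ' / √3) D :=
  Top.conv_of_key (by positivity) Top.s_mono
    (fun _ hδ hlim => key_all hP hS hC hκ (lvl_of hQ hP hS hC hκ) hδ hlim)
    Dom.s_law Dom.s_in Dom.s_out Dom.s_fldO hD

end Vale.Agent.P153.F
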