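import Vale.Agent.P153.JG.Shape

/-!
# P153-F: prescribed boundary values `±1` (in particular the two arcs of Q1)

The uniform heights with prescribed boundary values `ξ ∈ {1, -1}` can be coupled to the uniform
heights with free boundary values `±1` such that the two differ by at most two everywhere: the
single-site dynamics driven by the same updates preserves this relation, and the joint laws on
pairs at distance at most two contain one with uniform marginals (it minimises the sum of the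
squares of the marginals).
-/

set_option autoImplicit false

open MeasureTheory ProbabilityTheory Filter Topology

namespace Vale.Agent.P153.F.Dom.Arcs


open Vale.Agent.P145.PT (V TestOn)

variable {n : ℕ} {p : ZMod n → ℤ × ℤ} {S : Finset ((ℤ × ℤ) × Bool)} {ξ : ZMod n → ℤ}

/-- The heights with the values `ξ` on the polygon. -/
def HeightsB {n : ℕ} (p : ZMod n → ℤ × ℤ) (S : Finset ((ℤ × ℤ) × Bool)) (ξ : ZMod n → ℤ) :
    Set (ℤ × ℤ → ℤ) := {h | h ∈ Heights p S ∧ ∀ i, h (p i) = ξ i}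

/-- Odd Lipschitz heights on the vertices of `S`, zero elsewhere. -/
def Ok (S : Finset ((ℤ × ℤ) × Bool)) (h : ℤ × ℤ → ℤ) : Prop :=
  (∀ v ∈ verts S, Odd (h v)) ∧
    (∀ v ∈ verts S, ∀ w ∈ verts S, GFF.Adj v w → |h v - h w| ≤ 2) ∧ ∀ v, v ∉ verts S → h v = 0

theorem par {a b : ℤ} (ha : Odd a) (hb : Odd b) : (|a - b| = 0 ∨ |a - b| = 2) ↔ |a - b| ≤ 2 := by
  obtain ⟨x, rfl⟩ := ha
  obtain ⟨y, rfl⟩ := hb
  constructor
  · rintro (h | h) <;> rw [h]
    norm_num
  · intro h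
    have h0 := abs_le.1 h
    have : x = y ∨ x = y + 1 ∨ x = y - 1 := by omega
    rcases this with rfl | rfl | rfl
    · left; simp
    · right
      rw [show 2 * (y + 1) + 1 - (2 * y + 1) = 2 by ring]; rfl
    · right
      rw [show 2 * (y - 1) + 1 - (2 * y + 1) = -2 by ring]; rfl

theorem mem_heights {h : ℤ × ℤ → ℤ} :
    h ∈ Heights p S ↔ Ok S h ∧ ∀ i, h (p i) = 1 ∨ h (p i) = -1 := by
  constructor
  · rintro ⟨h1, h2, h3, h4⟩
    exact ⟨⟨h1, fun v hv w hw a => (par (h1 v hv) (h1 w hw)).1 (h3 v hv w hw a), h4⟩, h2⟩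
  · rintro ⟨⟨h1, h3, h4⟩, h2⟩
    exact ⟨h1, h2, fun v hv w hw a => (par (h1 v hv) (h1 w hw)).2 (h3 v hv w hw a), h4⟩

theorem Ok.inf {a b : ℤ × ℤ → ℤ} (ha : Ok S a) (hb : Ok S b) : Ok S (a ⊓ b) := by
  refine ⟨fun v hv => ?_, fun v hv w hw h => ?_, fun v hv => ?_⟩
  · rw [Pi.inf_apply]
    rcases min_choice (a v) (b v) with h | h
    · rw [h]; exact ha.1 v hv
    · rw [h]; exact hb.1 v hv
  · have h1 := abs_le.1 (ha.2.1 v hv w hw h)
    have h2 := abs_le.1 (hb.2.1 v hv w hw h)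
    rw [Pi.inf_apply, Pi.inf_apply, abs_le]
    constructor <;> omega
  · rw [Pi.inf_apply, ha.2.2 v hv, hb.2.2 v hv, inf_idem]

theorem Ok.sup {a b : ℤ × ℤ → ℤ} (ha : Ok S a) (hb : Ok S b) : Ok S (a ⊔ b) := by
  refine ⟨fun v hv => ?_, fun v hv w hw h => ?_, fun v hv => ?_⟩
  · rw [Pi.sup_apply]
    rcases max_choice (a v) (b v) with h | h
    · rw [h]; exact ha.1 v hv
    · rw [h]; exact hb.1 v hv
  · have h1 := abs_le.1 (ha.2.1 v hv w hw h)
    have h2 := abs_le.1 (hb.2.1 v hv w hw h)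
    rw [Pi.sup_apply, Pi.sup_apply, abs_le]
    constructor <;> omega
  · rw [Pi.sup_apply, ha.2.2 v hv, hb.2.2 v hv, sup_idem]

theorem heightsB_ne (hp : IsPolygon p) (hS : Encloses p S) (hξ : ∀ i, ξ i = 1 ∨ ξ i = -1) :
    (HeightsB p S ξ).Nonempty := by
  classical
  set g : ℤ × ℤ → ℤ := fun v => if hv : ∃ i, p i = v then ξ hv.choose else
    if v ∈ verts S then 1 else 0 with hg
  have h1 : ∀ v ∈ verts S, g v = 1 ∨ g v = -1 := by
    intro v hv
    by_cases h : ∃ i, p i = v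
    · rw [hg]
      simp only [dif_pos h]
      exact hξ _
    · left
      rw [hg]
      simp only [dif_neg h, if_pos hv]
  have h2 : ∀ i, g (p i) = ξ i := by
    intro i
    have h : ∃ j, p j = p i := ⟨i, rfl⟩
    rw [hg]
    simp only [dif_pos h]
    rw [hp.2.1 h.choose_spec]
  refine ⟨g, mem_heights.2 ⟨⟨fun v hv => ?_, fun v hv w hw _ => ?_, fun v hv => ?_⟩, fun i => ?_⟩,
    h2⟩
  · rcases h1 v hv with h | h <;> rw [h] <;> decide
  · rcases h1 v hv with h | h <;> rcases h1 w hw with h' | h' <;> rw [h, h'] <;> decide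
  · have h : ¬ ∃ i, p i = v := by
      rintro ⟨i, rfl⟩
      exact hv (dl_poly hp hS i)
    rw [hg]
    simp only [dif_neg h, if_neg hv]
  · rw [h2]
    exact hξ i

/-! ### Single-site moves on a finite set of functions -/

section Move

variable {v w : ℤ × ℤ} {c : ℤ} {h a b : ℤ × ℤ → ℤ} {A : Finset (ℤ × ℤ → ℤ)}

/-- Change the height at `v` by `c`. -/
def bump (v : ℤ × ℤ) (c : ℤ) (h : ℤ × ℤ → ℤ) : ℤ × ℤ → ℤ := Function.update h v (h v + c)

theorem bump_self : bump v c h v = h v + c := Function.update_self ..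

theorem bump_ne (hw : w ≠ v) : bump v c h w = h w := Function.update_of_ne hw ..

theorem bump_bump (v : ℤ × ℤ) (c : ℤ) (h : ℤ × ℤ → ℤ) : bump v (-c) (bump v c h) = h := by
  funext w
  by_cases hw : w = v
  · subst hw
    rw [bump_self, bump_self]
    ring
  · rw [bump_ne hw, bump_ne hw]

theorem bump_bump' (v : ℤ × ℤ) (c : ℤ) (h : ℤ × ℤ → ℤ) : bump v c (bump v (-c) h) = h := by
  have := bump_bump v (-c) h
  rwa [neg_neg] at this

open Classical in
/-- Move the height at `v` by `c` if this is allowed. -/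
noncomputable def mv (A : Finset (ℤ × ℤ → ℤ)) (v : ℤ × ℤ) (c : ℤ) (h : ℤ × ℤ → ℤ) : ℤ × ℤ → ℤ :=
  if bump v c h ∈ A then bump v c h else h

theorem mv_pos (hh : bump v c h ∈ A) : mv A v c h = bump v c h := by
  classical
  exact if_pos hh

theorem mv_neg (hh : bump v c h ∉ A) : mv A v c h = h := by
  classical
  exact if_neg hh

theorem mv_mem (hh : h ∈ A) : mv A v c h ∈ A := by
  by_cases hb : bump v c h ∈ A
  · rwa [mv_pos hb]
  · rwa [mv_neg hb]

theorem mv_ne (hw : w ≠ v) : mv A v c h w = h w := by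
  by_cases hb : bump v c h ∈ A
  · rw [mv_pos hb, bump_ne hw]
  · rw [mv_neg hb]

open Classical in
theorem mv_pre1 (v : ℤ × ℤ) (c : ℤ) (ha : a ∈ A) (W : (ℤ × ℤ → ℤ) → ℝ) :
    (∑ x ∈ A, if mv A v c x = a then W x else 0) =
      (if bump v (-c) a ∈ A then W (bump v (-c) a) else 0) + if bump v c a ∈ A then 0 else W a := by
  have h1 : ∀ x ∈ A, (if mv A v c x = a then W x else 0) =
      (if x = bump v (-c) a then W x else 0) +
        if x = a then (if bump v c a ∈ A then 0 else W x) else 0 := by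
    intro x _
    by_cases hb : bump v c x ∈ A
    · rw [mv_pos hb]
      have e1 : bump v c x = a ↔ x = bump v (-c) a := by
        constructor
        · rintro rfl
          rw [bump_bump]
        · rintro rfl
          rw [bump_bump']
      have e2 : (if x = a then (if bump v c a ∈ A then (0 : ℝ) else W x) else 0) = 0 := by
        split_ifs with h2 h3
        · rfl
        · exact absurd (h2 ▸ hb) h3
        · rfl
      rw [e2, add_zero]
      simp only [e1]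
    · rw [mv_neg hb]
      have e1 : (if x = bump v (-c) a then W x else 0) = 0 := by
        rw [if_neg]
        rintro rfl
        rw [bump_bump'] at hb
        exact hb ha
      rw [e1, zero_add]
      by_cases hx : x = a
      · subst hx
        rw [if_pos rfl, if_pos rfl, if_neg hb]
      · rw [if_neg hx, if_neg hx]
  rw [Finset.sum_congr rfl h1, Finset.sum_add_distrib, Finset.sum_ite_eq', Finset.sum_ite_eq',
    if_pos ha]

open Classical in
theorem mv_pre (v : ℤ × ℤ) (c : ℤ) (ha : a ∈ A) (W : (ℤ × ℤ → ℤ) → ℝ) :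
    (∑ x ∈ A, if mv A v c x = a then W x else 0) + (∑ x ∈ A, if mv A v (-c) x = a then W x else 0)
      = W (mv A v c a) + W (mv A v (-c) a) := by
  rw [mv_pre1 v c ha, mv_pre1 v (-c) ha, neg_neg]
  unfold mv
  split_ifs <;> ring

/-- The uniform measure is invariant. -/
theorem mv_sum (v : ℤ × ℤ) (c : ℤ) (W : (ℤ × ℤ → ℤ) → ℝ) :
    (∑ x ∈ A, W (mv A v c x)) + ∑ x ∈ A, W (mv A v (-c) x) = 2 * ∑ x ∈ A, W x := by
  classical
  have h1 : ∀ c : ℤ, ∑ x ∈ A, W x = ∑ a ∈ A, ∑ x ∈ A, if mv A v c x = a then W x else 0 := by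
    intro c
    rw [Finset.sum_comm]
    refine Finset.sum_congr rfl fun x hx => ?_
    rw [Finset.sum_ite_eq, if_pos (mv_mem hx)]
  have h2 := h1 c
  have h3 := h1 (-c)
  have h4 : (∑ x ∈ A, W (mv A v c x)) + ∑ x ∈ A, W (mv A v (-c) x) =
      (∑ a ∈ A, ∑ x ∈ A, if mv A v c x = a then W x else 0) +
      ∑ a ∈ A, ∑ x ∈ A, if mv A v (-c) x = a then W x else 0 := by
    rw [← Finset.sum_add_distrib, ← Finset.sum_add_distrib]
    exact Finset.sum_congr rfl fun a ha => (mv_pre v c ha W).symm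
  rw [h4, ← h2, ← h3]
  ring

/-- A function invariant under the moves is constant, if the set is connected. -/
theorem const_of (hinf : ∀ a ∈ A, ∀ b ∈ A, a ⊓ b ∈ A)
    (hup : ∀ a ∈ A, ∀ b ∈ A, a ≤ b → a ≠ b → ∃ v, bump v 2 a ∈ A ∧ bump v 2 a ≤ b)
    {W : (ℤ × ℤ → ℤ) → ℝ} (hW : ∀ v, ∀ a ∈ A, W (mv A v 2 a) = W a) :
    ∀ a ∈ A, ∀ b ∈ A, W a = W b := by
  classical
  have key : ∀ k : ℕ, ∀ a ∈ A, ∀ b ∈ A, a ≤ b → (A.filter fun x => a ≤ x).card ≤ k →
      W a = W b := by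
    intro k
    induction k with
    | zero =>
      intro a ha b _ _ hk
      rw [Nat.le_zero, Finset.card_eq_zero] at hk
      have : a ∈ A.filter fun x => a ≤ x := Finset.mem_filter.2 ⟨ha, le_rfl⟩
      rw [hk] at this
      exact absurd this (Finset.notMem_empty _)
    | succ k ih =>
      intro a ha b hb hab hk
      by_cases he : a = b
      · rw [he]
      · obtain ⟨v, h1, h2⟩ := hup a ha b hb hab he
        have h3 : W (bump v 2 a) = W a := by
          rw [← mv_pos h1]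
          exact hW v a ha
        rw [← h3]
        refine ih _ h1 b hb h2 ?_
        have h4 : a ≤ bump v 2 a := by
          intro w
          by_cases hw : w = v
          · rw [hw, bump_self]
            exact le_add_of_nonneg_right (by norm_num)
          · rw [bump_ne hw]
        have h5 : (A.filter fun x => bump v 2 a ≤ x) ⊂ A.filter fun x => a ≤ x := by
          refine Finset.ssubset_iff_subset_ne.2 ⟨fun x hx => ?_, fun hne => ?_⟩
          · rw [Finset.mem_filter] at hx ⊢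
            exact ⟨hx.1, h4.trans hx.2⟩
          · have : a ∈ A.filter fun x => bump v 2 a ≤ x := by
              rw [hne]
              exact Finset.mem_filter.2 ⟨ha, le_rfl⟩
            have h6 : bump v 2 a v ≤ a v := (Finset.mem_filter.1 this).2 v
            rw [bump_self] at h6
            linarith
        have := Finset.card_lt_card h5
        omega
  intro a ha b hb
  rw [← key _ _ (hinf a ha b hb) a ha inf_le_left le_rfl,
    ← key _ _ (hinf a ha b hb) b hb inf_le_right le_rfl]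

end Move

/-! ### The coupled chain -/

section Couple

variable {A B : Finset (ℤ × ℤ → ℤ)} {P : Finset ((ℤ × ℤ → ℤ) × (ℤ × ℤ → ℤ))}

open Classical in
/-- The first marginal. -/
noncomputable def m1 (w : ↥P → ℝ) (a : ℤ × ℤ → ℤ) : ℝ := ∑ q : ↥P, if q.1.1 = a then w q else 0

open Classical in
/-- The second marginal. -/
noncomputable def m2 (w : ↥P → ℝ) (a : ℤ × ℤ → ℤ) : ℝ := ∑ q : ↥P, if q.1.2 = a then w q else 0

open Classical in
/-- The image of a weight. -/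
noncomputable def push (f : ↥P → ↥P) (w : ↥P → ℝ) : ↥P → ℝ :=
  fun q => ∑ x : ↥P, if f x = q then w x else 0

theorem push_mem {f : ↥P → ↥P} {w : ↥P → ℝ} (hw : w ∈ stdSimplex ℝ ↥P) :
    push f w ∈ stdSimplex ℝ ↥P := by
  classical
  refine ⟨fun q => Finset.sum_nonneg fun x _ => ?_, ?_⟩
  · split_ifs
    · exact hw.1 x
    · exact le_rfl
  · unfold push
    rw [Finset.sum_comm]
    rw [← hw.2]
    refine Finset.sum_congr rfl fun x _ => ?_
    rw [Finset.sum_ite_eq, if_pos (Finset.mem_univ _)]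

open Classical in
theorem m1_push (f : ↥P → ↥P) (w : ↥P → ℝ) (g : (ℤ × ℤ → ℤ) → (ℤ × ℤ → ℤ))
    (hg : ∀ q : ↥P, (f q).1.1 = g q.1.1) (hP : ∀ q ∈ P, q.1 ∈ A) (a : ℤ × ℤ → ℤ) :
    m1 (push f w) a = ∑ x ∈ A, if g x = a then m1 w x else 0 := by
  unfold m1 push
  have e1 : ∀ q : ↥P, (if q.1.1 = a then ∑ x : ↥P, (if f x = q then w x else 0) else 0) =
      ∑ x : ↥P, if f x = q then (if q.1.1 = a then w x else 0) else 0 := by
    intro q
    split_ifs with h
    · rfl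
    · simp
  have e2 : ∀ x ∈ A, (if g x = a then ∑ q : ↥P, (if q.1.1 = x then w q else 0) else 0) =
      ∑ q : ↥P, if x = q.1.1 then (if g x = a then w q else 0) else 0 := by
    intro x _
    split_ifs with h
    · exact Finset.sum_congr rfl fun q _ => by simp only [eq_comm]
    · simp
  rw [Finset.sum_congr rfl fun q _ => e1 q, Finset.sum_congr rfl e2, Finset.sum_comm,
    Finset.sum_comm (s := A)]
  refine Finset.sum_congr rfl fun q _ => ?_
  rw [Finset.sum_ite_eq, if_pos (Finset.mem_univ _), Finset.sum_ite_eq', if_pos (hP _ q.2), hg]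

open Classical in
theorem m2_push (f : ↥P → ↥P) (w : ↥P → ℝ) (g : (ℤ × ℤ → ℤ) → (ℤ × ℤ → ℤ))
    (hg : ∀ q : ↥P, (f q).1.2 = g q.1.2) (hP : ∀ q ∈ P, q.2 ∈ A) (a : ℤ × ℤ → ℤ) :
    m2 (push f w) a = ∑ x ∈ A, if g x = a then m2 w x else 0 := by
  unfold m2 push
  have e1 : ∀ q : ↥P, (if q.1.2 = a then ∑ x : ↥P, (if f x = q then w x else 0) else 0) =
      ∑ x : ↥P, if f x = q then (if q.1.2 = a then w x else 0) else 0 := by
    intro q
    split_ifs with h
    · rfl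
    · simp
  have e2 : ∀ x ∈ A, (if g x = a then ∑ q : ↥P, (if q.1.2 = x then w q else 0) else 0) =
      ∑ q : ↥P, if x = q.1.2 then (if g x = a then w q else 0) else 0 := by
    intro x _
    split_ifs with h
    · exact Finset.sum_congr rfl fun q _ => by simp only [eq_comm]
    · simp
  rw [Finset.sum_congr rfl fun q _ => e1 q, Finset.sum_congr rfl e2, Finset.sum_comm,
    Finset.sum_comm (s := A)]
  refine Finset.sum_congr rfl fun q _ => ?_
  rw [Finset.sum_ite_eq, if_pos (Finset.mem_univ _), Finset.sum_ite_eq', if_pos (hP _ q.2), hg]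

end Couple


/-! ### The move keeps the distance at most two -/

section Pres

variable {n : ℕ} {p : ZMod n → ℤ × ℤ} {S : Finset ((ℤ × ℤ) × Bool)} {ξ : ZMod n → ℤ}
  {A B : Finset (ℤ × ℤ → ℤ)}

theorem adj_symm {v w : ℤ × ℤ} (h : GFF.Adj v w) : GFF.Adj w v := by
  obtain ⟨v1, v2⟩ := v
  obtain ⟨w1, w2⟩ := w
  unfold GFF.Adj at h ⊢
  simp only [Set.mem_insert_iff, Set.mem_singleton_iff, Prod.mk.injEq] at h ⊢
  omega

theorem Ok.bump_aux {h : ℤ × ℤ → ℤ} {v : ℤ × ℤ} {c : ℤ} (hc : Even c) (h2 : Ok S h)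
    (hv : v ∈ verts S)
    (hm : ∀ w ∈ verts S, GFF.Adj v w → |h v + c - h w| ≤ 2) : Ok S (bump v c h) := by
  refine ⟨fun u hu => ?_, fun u hu w hw huw => ?_, fun u hu => ?_⟩
  · by_cases h' : u = v
    · rw [h', bump_self]
      exact (h2.1 v hv).add_even hc
    · rw [bump_ne h']
      exact h2.1 u hu
  · by_cases h' : u = v
    · by_cases h'' : w = v
      · rw [h', h'', sub_self]
        norm_num
      · rw [h', bump_self, bump_ne h'']
        exact hm w hw (h' ▸ huw)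
    · by_cases h'' : w = v
      · rw [h'', bump_self, bump_ne h', abs_sub_comm]
        exact hm u hu (h'' ▸ adj_symm huw)
      · rw [bump_ne h', bump_ne h'']
        exact h2.2.1 u hu w hw huw
  · have hne : u ≠ v := fun e => hu (by rw [e]; exact hv)
    rw [bump_ne hne, h2.2.2 u hu]

theorem Ok.bump_of {h h' : ℤ × ℤ → ℤ} {v : ℤ × ℤ} {c : ℤ} (hc : c = 2 ∨ c = -2) (h1 : Ok S h)
    (h2 : Ok S h') (hd : ∀ w ∈ verts S, |h w - h' w| ≤ 2) (hv : v ∈ verts S)
    (hb : Ok S (bump v c h)) (hbad : 2 < |h v + c - h' v|) : Ok S (bump v c h') := by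
  refine h2.bump_aux (by rcases hc with rfl | rfl <;> decide) hv fun w hw hvw => ?_
  by_cases hwv : w = v
  · have := (h1.2.1 v hv w hw hvw)
    rw [hwv]
    rcases hc with rfl | rfl
    · rw [add_sub_cancel_left]; rfl
    · rw [add_sub_cancel_left]; rfl
  have a1 := hb.2.1 v hv w hw hvw
  rw [bump_self, bump_ne hwv] at a1
  have a2 := hd v hv
  have a3 := hd w hw
  have a4 := h2.2.1 v hv w hw hvw
  obtain ⟨x, hx⟩ := h1.1 v hv
  obtain ⟨y, hy⟩ := h2.1 v hv
  rw [abs_le] at a1 a2 a3 a4 ⊢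
  rcases hc with rfl | rfl <;> rcases lt_abs.1 hbad with h5 | h5 <;> constructor <;> omega

theorem pres (hξ : ∀ i, ξ i = 1 ∨ ξ i = -1) (hA : ∀ h, h ∈ A ↔ h ∈ HeightsB p S ξ)
    (hB : ∀ h, h ∈ B ↔ h ∈ Heights p S) {v : ℤ × ℤ} {c : ℤ} (hc : c = 2 ∨ c = -2)
    {a b : ℤ × ℤ → ℤ} (ha : a ∈ A) (hb : b ∈ B) (hd : ∀ w ∈ verts S, |a w - b w| ≤ 2) :
    ∀ w ∈ verts S, |mv A v c a w - mv B v c b w| ≤ 2 := by
  intro w hw
  by_cases hwv : w = v
  · by_cases hi : ∃ i, p i = w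
    · obtain ⟨i, rfl⟩ := hi
      have e1 := ((hA _).1 (mv_mem (v := v) (c := c) ha)).2 i
      have e2 := (mem_heights.1 ((hB _).1 (mv_mem (v := v) (c := c) hb))).2 i
      have e3 := hξ i
      rw [e1, abs_le]
      constructor <;> omega
    · subst hwv
      have hi' : ∀ i, p i ≠ w := fun i h => hi ⟨i, h⟩
      have ha1 := (hA _).1 ha
      have ha2 := mem_heights.1 ha1.1
      have hb2 := mem_heights.1 ((hB _).1 hb)
      by_contra hbad
      by_cases ma : bump w c a ∈ A <;> by_cases mb : bump w c b ∈ B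
      · rw [mv_pos ma, mv_pos mb, bump_self, bump_self, add_sub_add_right_eq_sub] at hbad
        exact hbad (hd w hw)
      · rw [mv_pos ma, mv_neg mb, bump_self, not_le] at hbad
        refine mb ((hB _).2 (mem_heights.2 ⟨Ok.bump_of hc ha2.1 hb2.1 hd hw
          (mem_heights.1 ((hA _).1 ma).1).1 hbad, fun i => ?_⟩))
        rw [bump_ne (hi' i)]
        exact hb2.2 i
      · rw [mv_neg ma, mv_pos mb, bump_self, not_le, abs_sub_comm] at hbad
        refine ma ((hA _).2 ⟨mem_heights.2 ⟨Ok.bump_of hc hb2.1 ha2.1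
          (fun u hu => by rw [abs_sub_comm]; exact hd u hu) hw
          (mem_heights.1 ((hB _).1 mb)).1 hbad, fun i => ?_⟩, fun i => ?_⟩)
        · rw [bump_ne (hi' i)]
          exact ha2.2 i
        · rw [bump_ne (hi' i)]
          exact ha1.2 i
      · rw [mv_neg ma, mv_neg mb] at hbad
        exact hbad (hd w hw)
  · rw [mv_ne hwv, mv_ne hwv]
    exact hd w hw

theorem conn {a b : ℤ × ℤ → ℤ} (ha : Ok S a) (hb : Ok S b) (hab : a ≤ b) (hne : a ≠ b) :
    ∃ v ∈ verts S, a v < b v ∧ Ok S (bump v 2 a) ∧ bump v 2 a ≤ b := by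
  classical
  obtain ⟨u, hu⟩ : ∃ u, a u ≠ b u := by
    by_contra hc
    push Not at hc
    exact hne (funext hc)
  have huv : u ∈ verts S := by
    by_contra hn
    rw [ha.2.2 u hn, hb.2.2 u hn] at hu
    exact hu rfl
  have hT : ((verts S).filter fun v => a v < b v).Nonempty :=
    ⟨u, Finset.mem_filter.2 ⟨huv, lt_of_le_of_ne (hab u) hu⟩⟩
  obtain ⟨v, hv, hmin⟩ := Finset.exists_min_image _ (fun v => a v) hT
  rw [Finset.mem_filter] at hv
  obtain ⟨x, hx⟩ := ha.1 v hv.1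
  obtain ⟨y, hy⟩ := hb.1 v hv.1
  have hgap : a v + 2 ≤ b v := by
    have := hv.2
    omega
  refine ⟨v, hv.1, hv.2, ha.bump_aux even_two hv.1 fun w hw hvw => ?_, fun w => ?_⟩
  · have a1 := abs_le.1 (ha.2.1 v hv.1 w hw hvw)
    have a2 := abs_le.1 (hb.2.1 v hv.1 w hw hvw)
    have a3 : a w ≤ b w := hab w
    have a4 : a w < b w → a v ≤ a w := fun h => hmin w (Finset.mem_filter.2 ⟨hw, h⟩)
    rw [abs_le]
    constructor <;> omega
  · by_cases hwv : w = v
    · rw [hwv, bump_self]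
      exact hgap
    · rw [bump_ne hwv]
      exact hab w

end Pres

/-! ### The minimisation -/

section Min

variable {A B : Finset (ℤ × ℤ → ℤ)} {P : Finset ((ℤ × ℤ → ℤ) × (ℤ × ℤ → ℤ))}

theorem m1_cont (a : ℤ × ℤ → ℤ) : Continuous fun w : ↥P → ℝ => m1 w a := by
  classical
  unfold m1
  refine continuous_finsetSum _ fun q _ => ?_
  split_ifs
  · exact continuous_apply q
  · exact continuous_const

theorem m2_cont (a : ℤ × ℤ → ℤ) : Continuous fun w : ↥P → ℝ => m2 w a := by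
  classical
  unfold m2
  refine continuous_finsetSum _ fun q _ => ?_
  split_ifs
  · exact continuous_apply q
  · exact continuous_const

theorem m1_total (hP : ∀ q ∈ P, q.1 ∈ A) {w : ↥P → ℝ} (hw : w ∈ stdSimplex ℝ ↥P) :
    ∑ a ∈ A, m1 w a = 1 := by
  classical
  unfold m1
  rw [Finset.sum_comm, ← hw.2]
  refine Finset.sum_congr rfl fun q _ => ?_
  rw [Finset.sum_ite_eq, if_pos (hP _ q.2)]

theorem m2_total (hP : ∀ q ∈ P, q.2 ∈ A) {w : ↥P → ℝ} (hw : w ∈ stdSimplex ℝ ↥P) :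
    ∑ a ∈ A, m2 w a = 1 := by
  classical
  unfold m2
  rw [Finset.sum_comm, ← hw.2]
  refine Finset.sum_congr rfl fun q _ => ?_
  rw [Finset.sum_ite_eq, if_pos (hP _ q.2)]

/-- The quadratic functional decreases. -/
theorem sq_dec (v : ℤ × ℤ) (c : ℤ) (W W' : (ℤ × ℤ → ℤ) → ℝ)
    (hW : ∀ a ∈ A, W' a = (W a + (W (mv A v c a) + W (mv A v (-c) a))) / 3) :
    ∑ a ∈ A, W' a ^ 2 + (∑ a ∈ A, (W a - W (mv A v c a)) ^ 2) / 9 ≤ ∑ a ∈ A, W a ^ 2 := by
  have h1 := mv_sum (A := A) v c fun a => W a ^ 2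
  have h2 : ∑ a ∈ A, W a ^ 2 = ∑ a ∈ A, (W a ^ 2 + (W (mv A v c a) ^ 2 +
      W (mv A v (-c) a) ^ 2)) / 3 := by
    rw [← Finset.sum_div, Finset.sum_add_distrib, Finset.sum_add_distrib, h1]
    ring
  rw [h2, Finset.sum_div, ← Finset.sum_add_distrib]
  refine Finset.sum_le_sum fun a ha => ?_
  rw [hW a ha]
  nlinarith [sq_nonneg (W a - W (mv A v (-c) a)), sq_nonneg (W (mv A v c a) - W (mv A v (-c) a))]

theorem exists_w (hP1 : ∀ q ∈ P, q.1 ∈ A) (hP2 : ∀ q ∈ P, q.2 ∈ B) (hne : P.Nonempty)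
    (hmv : ∀ (v : ℤ × ℤ) (c : ℤ), (c = 2 ∨ c = -2) → ∀ q ∈ P,
      ((mv A v c q.1, mv B v c q.2) : (ℤ × ℤ → ℤ) × (ℤ × ℤ → ℤ)) ∈ P)
    (hA1 : ∀ a ∈ A, ∀ b ∈ A, a ⊓ b ∈ A)
    (hA2 : ∀ a ∈ A, ∀ b ∈ A, a ≤ b → a ≠ b → ∃ v, bump v 2 a ∈ A ∧ bump v 2 a ≤ b)
    (hB1 : ∀ a ∈ B, ∀ b ∈ B, a ⊓ b ∈ B)
    (hB2 : ∀ a ∈ B, ∀ b ∈ B, a ≤ b → a ≠ b → ∃ v, bump v 2 a ∈ B ∧ bump v 2 a ≤ b) :
    ∃ w ∈ stdSimplex ℝ ↥P, (∀ a ∈ A, m1 w a = (A.card : ℝ)⁻¹) ∧
      ∀ b ∈ B, m2 w b = (B.card : ℝ)⁻¹ := by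
  classical
  obtain ⟨q0, hq0⟩ := hne
  have hcont : Continuous fun w : ↥P → ℝ => ∑ a ∈ A, m1 w a ^ 2 + ∑ b ∈ B, m2 w b ^ 2 :=
    (continuous_finsetSum _ fun a _ => (m1_cont a).pow 2).add
      (continuous_finsetSum _ fun a _ => (m2_cont a).pow 2)
  obtain ⟨w, hw, hmin⟩ := (isCompact_stdSimplex ℝ ↥P).exists_isMinOn
    ⟨Pi.single (⟨q0, hq0⟩ : ↥P) 1, single_mem_stdSimplex ℝ _⟩ hcont.continuousOn
  have key : ∀ v, (∀ a ∈ A, m1 w (mv A v 2 a) = m1 w a) ∧
      ∀ b ∈ B, m2 w (mv B v 2 b) = m2 w b := by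
    intro v
    set f : ↥P → ↥P := fun q => ⟨(mv A v 2 q.1.1, mv B v 2 q.1.2), hmv v 2 (Or.inl rfl) _ q.2⟩
      with hf
    set g : ↥P → ↥P := fun q =>
      ⟨(mv A v (-2) q.1.1, mv B v (-2) q.1.2), hmv v (-2) (Or.inr rfl) _ q.2⟩ with hg
    set w' : ↥P → ℝ := fun q => (w q + (push f w q + push g w q)) / 3 with hw'
    have hfm := push_mem (f := f) hw
    have hgm := push_mem (f := g) hw
    have hw'm : w' ∈ stdSimplex ℝ ↥P := by
      refine ⟨fun q => ?_, ?_⟩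
      · have h1 := hw.1 q
        have h2 := hfm.1 q
        have h3 := hgm.1 q
        rw [hw']
        positivity
      · rw [hw']
        rw [← Finset.sum_div, Finset.sum_add_distrib, Finset.sum_add_distrib, hw.2, hfm.2, hgm.2]
        norm_num
    have e1 : ∀ a ∈ A, m1 w' a = (m1 w a + (m1 w (mv A v 2 a) + m1 w (mv A v (-2) a))) / 3 := by
      intro a ha
      have h1 : m1 w' a = (m1 w a + (m1 (push f w) a + m1 (push g w) a)) / 3 := by
        unfold m1
        rw [← Finset.sum_add_distrib, ← Finset.sum_add_distrib, Finset.sum_div]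
        refine Finset.sum_congr rfl fun q _ => ?_
        split_ifs <;> simp [hw']
      rw [h1, m1_push f w (mv A v 2) (fun _ => rfl) hP1, m1_push g w (mv A v (-2)) (fun _ => rfl) hP1,
        mv_pre v 2 ha]
    have e2 : ∀ a ∈ B, m2 w' a = (m2 w a + (m2 w (mv B v 2 a) + m2 w (mv B v (-2) a))) / 3 := by
      intro a ha
      have h1 : m2 w' a = (m2 w a + (m2 (push f w) a + m2 (push g w) a)) / 3 := by
        unfold m2
        rw [← Finset.sum_add_distrib, ← Finset.sum_add_distrib, Finset.sum_div]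
        refine Finset.sum_congr rfl fun q _ => ?_
        split_ifs <;> simp [hw']
      rw [h1, m2_push f w (mv B v 2) (fun _ => rfl) hP2, m2_push g w (mv B v (-2)) (fun _ => rfl) hP2,
        mv_pre v 2 ha]
    have k1 := sq_dec v 2 (m1 w) (m1 w') e1
    have k2 := sq_dec v 2 (m2 w) (m2 w') e2
    have k3 : ∑ a ∈ A, m1 w a ^ 2 + ∑ b ∈ B, m2 w b ^ 2 ≤
      ∑ a ∈ A, m1 w' a ^ 2 + ∑ b ∈ B, m2 w' b ^ 2 := hmin hw'm
    have s1 : 0 ≤ ∑ a ∈ A, (m1 w a - m1 w (mv A v 2 a)) ^ 2 := Finset.sum_nonneg fun _ _ => sq_nonneg _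
    have s2 : 0 ≤ ∑ a ∈ B, (m2 w a - m2 w (mv B v 2 a)) ^ 2 := Finset.sum_nonneg fun _ _ => sq_nonneg _
    have z1 : ∑ a ∈ A, (m1 w a - m1 w (mv A v 2 a)) ^ 2 = 0 := by linarith
    have z2 : ∑ a ∈ B, (m2 w a - m2 w (mv B v 2 a)) ^ 2 = 0 := by linarith
    rw [Finset.sum_eq_zero_iff_of_nonneg fun _ _ => sq_nonneg _] at z1 z2
    refine ⟨fun a ha => ?_, fun a ha => ?_⟩
    · have := pow_eq_zero_iff (two_ne_zero) |>.1 (z1 a ha)
      linarith
    · have := pow_eq_zero_iff (two_ne_zero) |>.1 (z2 a ha)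
      linarith
  have c1 := const_of hA1 hA2 fun v => (key v).1
  have c2 := const_of hB1 hB2 fun v => (key v).2
  have hAne : A.Nonempty := ⟨_, hP1 _ hq0⟩
  have hBne : B.Nonempty := ⟨_, hP2 _ hq0⟩
  refine ⟨w, hw, fun a ha => ?_, fun b hb => ?_⟩
  · have h1 := m1_total hP1 hw
    rw [Finset.sum_congr rfl fun x hx => c1 x hx a ha, Finset.sum_const, nsmul_eq_mul] at h1
    have h2 : (A.card : ℝ) ≠ 0 := by
      have := hAne.card_pos
      positivity
    field_simp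
    linarith
  · have h1 := m2_total hP2 hw
    rw [Finset.sum_congr rfl fun x hx => c2 x hx b hb, Finset.sum_const, nsmul_eq_mul] at h1
    have h2 : (B.card : ℝ) ≠ 0 := by
      have := hBne.card_pos
      positivity
    field_simp
    linarith

end Min


/-! ### The coupling -/

section Final

variable {n : ℕ} {p : ZMod n → ℤ × ℤ} {S : Finset ((ℤ × ℤ) × Bool)} {ξ : ZMod n → ℤ}

open Classical in
theorem sum_ofReal {P : Finset ((ℤ × ℤ → ℤ) × (ℤ × ℤ → ℤ))} {A : Finset (ℤ × ℤ → ℤ)}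
    {w : ↥P → ℝ} (hw : ∀ q, 0 ≤ w q) (g : (ℤ × ℤ → ℤ) × (ℤ × ℤ → ℤ) → (ℤ × ℤ → ℤ))
    (hP : ∀ q ∈ P, g q ∈ A) (hA : A.Nonempty)
    (hm : ∀ a ∈ A, (∑ q : ↥P, if g q.1 = a then w q else 0) = (A.card : ℝ)⁻¹)
    (t : Set (ℤ × ℤ → ℤ)) :
    ∑ q : ↥P, ENNReal.ofReal (w q) * t.indicator 1 (g q.1) =
      ((A.card : ENNReal))⁻¹ * ∑ a ∈ A, t.indicator 1 a := by
  have h1 : ∀ a ∈ A, ((A.card : ENNReal))⁻¹ * t.indicator 1 a =
      ∑ q : ↥P, if g q.1 = a then ENNReal.ofReal (w q) * t.indicator 1 (g q.1) else 0 := by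
    intro a ha
    have h0 : (A.card : ℝ) ≠ 0 := by
      have := hA.card_pos
      positivity
    have h2 : ((A.card : ENNReal))⁻¹ = ∑ q : ↥P, if g q.1 = a then ENNReal.ofReal (w q) else 0 := by
      have h3 : ((A.card : ENNReal))⁻¹ = ENNReal.ofReal ((A.card : ℝ)⁻¹) := by
        rw [ENNReal.ofReal_inv_of_pos (by have := hA.card_pos; positivity), ENNReal.ofReal_natCast]
      rw [h3, ← hm a ha, ENNReal.ofReal_sum_of_nonneg]
      · refine Finset.sum_congr rfl fun q _ => ?_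
        split_ifs
        · rfl
        · exact ENNReal.ofReal_zero
      · intro q _
        split_ifs
        · exact hw q
        · exact le_rfl
    rw [h2, Finset.sum_mul]
    refine Finset.sum_congr rfl fun q _ => ?_
    split_ifs with h
    · rw [h]
    · rw [zero_mul]
  rw [Finset.mul_sum, Finset.sum_congr rfl h1, Finset.sum_comm]
  refine Finset.sum_congr rfl fun q _ => ?_
  rw [Finset.sum_ite_eq, if_pos (hP _ q.2)]

theorem unif_apply {A : Finset (ℤ × ℤ → ℤ)} {t : Set (ℤ × ℤ → ℤ)} (ht : MeasurableSet t) :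
    uniformOn (A : Set (ℤ × ℤ → ℤ)) t = ((A.card : ENNReal))⁻¹ * ∑ a ∈ A, t.indicator 1 a := by
  classical
  rw [← JG.sum_dirac_unif A.finite_toSet, Measure.smul_apply, finsum_mem_coe_finset,
    Measure.finsetSum_apply, Set.ncard_coe_finset, smul_eq_mul]
  congr 1
  exact Finset.sum_congr rfl fun a _ => Measure.dirac_apply' a ht

/-- The heights with prescribed boundary values `ξ ∈ {1, -1}` can be coupled to the heights with
free boundary values `±1` such that the difference is at most two everywhere. -/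
theorem coupling {n : ℕ} (p : ZMod n → ℤ × ℤ) (S : Finset ((ℤ × ℤ) × Bool)) (hp : IsPolygon p)
    (hS : Encloses p S) (ξ : ZMod n → ℤ) (hξ : ∀ i, ξ i = 1 ∨ ξ i = -1) :
    ∃ Q : Measure ((ℤ × ℤ → ℤ) × (ℤ × ℤ → ℤ)),
      Q.map Prod.fst = uniformOn {h | h ∈ Heights p S ∧ ∀ i, h (p i) = ξ i} ∧
      Q.map Prod.snd = uniformOn (Heights p S) ∧ ∀ᵐ q ∂Q, ∀ v, |q.1 v - q.2 v| ≤ 2 := by
  classical
  obtain ⟨hfin, -, -⟩ := s_law p S hp hS
  have hfinB : (HeightsB p S ξ).Finite := hfin.subset fun h hh => hh.1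
  set A := hfinB.toFinset with hAd
  set B := hfin.toFinset with hBd
  have hA : ∀ h, h ∈ A ↔ h ∈ HeightsB p S ξ := fun h => hfinB.mem_toFinset
  have hB : ∀ h, h ∈ B ↔ h ∈ Heights p S := fun h => hfin.mem_toFinset
  set P : Finset ((ℤ × ℤ → ℤ) × (ℤ × ℤ → ℤ)) :=
    (A ×ˢ B).filter fun q => ∀ v ∈ verts S, |q.1 v - q.2 v| ≤ 2 with hP
  have hP1 : ∀ q ∈ P, q.1 ∈ A := fun q hq => (Finset.mem_product.1 (Finset.mem_filter.1 hq).1).1
  have hP2 : ∀ q ∈ P, q.2 ∈ B := fun q hq => (Finset.mem_product.1 (Finset.mem_filter.1 hq).1).2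
  have hP3 : ∀ q ∈ P, ∀ v ∈ verts S, |q.1 v - q.2 v| ≤ 2 := fun q hq => (Finset.mem_filter.1 hq).2
  have hne : P.Nonempty := by
    obtain ⟨g, hg⟩ := heightsB_ne hp hS hξ
    refine ⟨(g, g), Finset.mem_filter.2 ⟨Finset.mem_product.2 ⟨(hA g).2 hg, (hB g).2 hg.1⟩,
      fun v _ => ?_⟩⟩
    simp
  have hmv : ∀ (v : ℤ × ℤ) (c : ℤ), (c = 2 ∨ c = -2) → ∀ q ∈ P,
      ((mv A v c q.1, mv B v c q.2) : (ℤ × ℤ → ℤ) × (ℤ × ℤ → ℤ)) ∈ P := by
    intro v c hc q hq
    exact Finset.mem_filter.2 ⟨Finset.mem_product.2 ⟨mv_mem (hP1 q hq), mv_mem (hP2 q hq)⟩,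
      pres hξ hA hB hc (hP1 q hq) (hP2 q hq) (hP3 q hq)⟩
  have hA1 : ∀ a ∈ A, ∀ b ∈ A, a ⊓ b ∈ A := by
    intro a ha b hb
    rw [hA] at ha hb ⊢
    have h1 := mem_heights.1 ha.1
    have h2 := mem_heights.1 hb.1
    have hv : ∀ i, (a ⊓ b) (p i) = ξ i := fun i => by
      rw [Pi.inf_apply, ha.2 i, hb.2 i, inf_idem]
    exact ⟨mem_heights.2 ⟨h1.1.inf h2.1, fun i => by rw [hv i]; exact hξ i⟩, hv⟩
  have hA2 : ∀ a ∈ A, ∀ b ∈ A, a ≤ b → a ≠ b → ∃ v, bump v 2 a ∈ A ∧ bump v 2 a ≤ b := by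
    intro a ha b hb hab hn
    rw [hA] at ha hb
    have h1 := mem_heights.1 ha.1
    have h2 := mem_heights.1 hb.1
    obtain ⟨v, -, k2, k3, k4⟩ := conn h1.1 h2.1 hab hn
    have hne' : ∀ i, p i ≠ v := by
      rintro i rfl
      rw [ha.2 i, hb.2 i] at k2
      exact lt_irrefl _ k2
    have hv : ∀ i, bump v 2 a (p i) = ξ i := fun i => by rw [bump_ne (hne' i)]; exact ha.2 i
    exact ⟨v, (hA _).2 ⟨mem_heights.2 ⟨k3, fun i => by rw [hv i]; exact hξ i⟩, hv⟩, k4⟩
  have hB1 : ∀ a ∈ B, ∀ b ∈ B, a ⊓ b ∈ B := by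
    intro a ha b hb
    rw [hB, mem_heights] at ha hb ⊢
    refine ⟨ha.1.inf hb.1, fun i => ?_⟩
    have h1 := ha.2 i
    have h2 := hb.2 i
    rw [Pi.inf_apply]
    omega
  have hB2 : ∀ a ∈ B, ∀ b ∈ B, a ≤ b → a ≠ b → ∃ v, bump v 2 a ∈ B ∧ bump v 2 a ≤ b := by
    intro a ha b hb hab hn
    rw [hB, mem_heights] at ha hb
    obtain ⟨v, -, k2, k3, k4⟩ := conn ha.1 hb.1 hab hn
    refine ⟨v, (hB _).2 (mem_heights.2 ⟨k3, fun i => ?_⟩), k4⟩
    have h1 := ha.2 i
    have h2 := hb.2 i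
    have h3 : bump v 2 a (p i) ≤ b (p i) := k4 (p i)
    have h4 : a (p i) ≤ bump v 2 a (p i) := by
      by_cases hw : p i = v
      · rw [hw, bump_self]
        exact le_add_of_nonneg_right (by norm_num)
      · rw [bump_ne hw]
    have h5 : Odd (bump v 2 a (p i)) := k3.1 _ (dl_poly hp hS i)
    obtain ⟨x, hx⟩ := h5
    omega
  obtain ⟨w, hw, hw1, hw2⟩ := exists_w hP1 hP2 hne hmv hA1 hA2 hB1 hB2
  have hAne : A.Nonempty := by
    obtain ⟨q, hq⟩ := hne
    exact ⟨_, hP1 q hq⟩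
  have hBne : B.Nonempty := by
    obtain ⟨q, hq⟩ := hne
    exact ⟨_, hP2 q hq⟩
  refine ⟨∑ q : ↥P, ENNReal.ofReal (w q) • Measure.dirac q.1, ?_, ?_, ?_⟩
  · refine Measure.ext fun t ht => ?_
    have e : ({h | h ∈ Heights p S ∧ ∀ i, h (p i) = ξ i} : Set (ℤ × ℤ → ℤ)) = (A : Set _) :=
      hfinB.coe_toFinset.symm
    rw [e, unif_apply ht, Measure.map_apply measurable_fst ht, Measure.finsetSum_apply,
      ← sum_ofReal hw.1 Prod.fst hP1 hAne hw1]
    refine Finset.sum_congr rfl fun q _ => ?_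
    rw [Measure.smul_apply, Measure.dirac_apply' _ (measurable_fst ht), smul_eq_mul]
    rfl
  · refine Measure.ext fun t ht => ?_
    have e : Heights p S = (B : Set _) := hfin.coe_toFinset.symm
    rw [e, unif_apply ht, Measure.map_apply measurable_snd ht, Measure.finsetSum_apply,
      ← sum_ofReal hw.1 Prod.snd hP2 hBne hw2]
    refine Finset.sum_congr rfl fun q _ => ?_
    rw [Measure.smul_apply, Measure.dirac_apply' _ (measurable_snd ht), smul_eq_mul]
    rfl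
  · have hm : MeasurableSet {q : (ℤ × ℤ → ℤ) × (ℤ × ℤ → ℤ) | ¬ ∀ v, |q.1 v - q.2 v| ≤ 2} := by
      have e : {q : (ℤ × ℤ → ℤ) × (ℤ × ℤ → ℤ) | ¬ ∀ v, |q.1 v - q.2 v| ≤ 2} =
          ⋃ v, (fun q : (ℤ × ℤ → ℤ) × (ℤ × ℤ → ℤ) => q.1 v - q.2 v) ⁻¹' {x | ¬ |x| ≤ 2} := by
        ext q
        simp
      rw [e]
      exact MeasurableSet.iUnion fun v => (by fun_prop : Measurable
        fun q : (ℤ × ℤ → ℤ) × (ℤ × ℤ → ℤ) => q.1 v - q.2 v) MeasurableSet.of_discrete
    rw [ae_iff, Measure.finsetSum_apply]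
    refine Finset.sum_eq_zero fun q _ => ?_
    rw [Measure.smul_apply, Measure.dirac_apply' _ hm, Set.indicator_of_notMem, smul_zero]
    rw [Set.mem_ofPred_eq, not_not]
    intro v
    by_cases hv : v ∈ verts S
    · exact hP3 _ q.2 v hv
    · have h1 := (mem_heights.1 ((hA _).1 (hP1 _ q.2)).1).1.2.2 v hv
      have h2 := (mem_heights.1 ((hB _).1 (hP2 _ q.2))).1.2.2 v hv
      rw [h1, h2]
      norm_num

end Final

end Vale.Agent.P153.F.Dom.Arcs
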