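import Vale.Agent.P153.F.Arcs
import Vale.Agent.P153.F.Dom.Fld

/-!
# P153-F: scaling limits of the heights with prescribed boundary values `±1`

For arbitrary boundary values `ξ ∈ {1, -1}` (in particular the two arcs of Q1), the distribution
functions of `h_δ(φ)` are asymptotically between those of the Gaussian limit shifted by
`± 2 ∫ |φ|`.
-/

set_option autoImplicit false

open MeasureTheory ProbabilityTheory Filter Topology

namespace Vale.Agent.P153.F.Dom.Arcs

open Vale.Agent.P145.PT (V TestOn)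

theorem abs_compact' {f : ℝ × ℝ → ℝ} (cf : HasCompactSupport f) :
    HasCompactSupport fun z => |f z| :=
  cf.comp_left (g := fun x : ℝ => |x|) abs_zero

/-- The total mass of the weights. -/
theorem sum_abs_wt' {δ R : ℝ} (hδ : 0 < δ) (hR : 0 ≤ R) {f : ℝ × ℝ → ℝ} (hc : Continuous f)
    (hs : HasCompactSupport f) (hf : ∀ z : ℝ × ℝ, (R < |z.1| ∨ R < |z.2|) → f z = 0) :
    ∑ v ∈ GFF.box δ R, |GFF.wt δ f v| ≤ ∫ z, |f z| := by
  have h1 := GFF.sum_wt hδ hR hc.abs (abs_compact' hs) (fun z hz => by rw [hf z hz, abs_zero])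
  rw [← h1]
  refine Finset.sum_le_sum fun v _ => ?_
  rw [GFF.wt_eq, GFF.wt_eq, abs_mul, abs_of_pos (by positivity : (0 : ℝ) < δ ^ 2)]
  refine mul_le_mul_of_nonneg_left ?_ (by positivity)
  refine (abs_integral_le_integral_abs).trans (le_of_eq ?_)
  congr 1
  funext u
  rw [abs_mul, abs_of_nonneg (GFF.ker_nonneg _)]

/-- The field is a linear function of the heights, of norm at most `∫ |φ|`. -/
theorem fld_ev {D : Set (ℝ × ℝ)} {δ : ℕ → ℝ} {N : ℕ → ℕ} {p : ∀ n, ZMod (N n) → ℤ × ℤ}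
    {S : ℕ → Finset ((ℤ × ℤ) × Bool)} (hA : JG.Approx D δ N p S) {φ : ℝ × ℝ → ℝ}
    (hφ : TestOn D φ) : ∀ᶠ n in atTop, ∃ (I : Finset (ℤ × ℤ)) (w : ℤ × ℤ → ℝ),
      (∑ v ∈ I, |w v| ≤ ∫ z, |φ z|) ∧ ∀ h : ℤ × ℤ → ℤ,
        fld (S n) (δ n) φ h = ∑ v ∈ I, (h v : ℝ) * w v := by
  obtain ⟨K, hK⟩ := fd930_csts hφ
  filter_upwards [hA.2.2.2 (tsupport φ) hφ.2.2 hK.supp.isCompact] with n h2
  have hδ := (hA.1 n).1
  refine ⟨GFF.box (δ n) K, GFF.wt (δ n) φ, sum_abs_wt' hδ hK.pos.le hK.cont hK.supp hK.zero,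
    fun h => ?_⟩
  have h5 : fld (S n) (δ n) φ h = GFF.smear h (δ n) φ := by
    unfold fld GFF.smear
    congr 1
    funext z
    by_cases hz : φ z = 0
    · rw [hz, mul_zero, mul_zero]
    · rw [if_pos (h2 (subset_tsupport _ hz))]
  rw [h5, GFF.smear_eq_sum hδ hK.pos.le hK.cont hK.supp hK.zero h]

theorem lin_meas (I : Finset (ℤ × ℤ)) (w : ℤ × ℤ → ℝ) :
    Measurable fun h : ℤ × ℤ → ℤ => ∑ v ∈ I, (h v : ℝ) * w v := by
  refine Finset.measurable_fun_sum _ fun v _ => Measurable.mul_const ?_ _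
  exact (Measurable.of_discrete (f := fun x : ℤ => (x : ℝ))).comp (measurable_pi_apply v)

theorem lin_close {I : Finset (ℤ × ℤ)} {w : ℤ × ℤ → ℝ} {M : ℝ} (hw : ∑ v ∈ I, |w v| ≤ M)
    {h h' : ℤ × ℤ → ℤ} (hh : ∀ v, |h v - h' v| ≤ 2) :
    |(∑ v ∈ I, (h v : ℝ) * w v) - ∑ v ∈ I, (h' v : ℝ) * w v| ≤ 2 * M := by
  rw [← Finset.sum_sub_distrib]
  refine (Finset.abs_sum_le_sum_abs _ _).trans ?_
  have h1 : ∑ v ∈ I, |(h v : ℝ) * w v - (h' v : ℝ) * w v| ≤ ∑ v ∈ I, 2 * |w v| := by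
    refine Finset.sum_le_sum fun v _ => ?_
    rw [← sub_mul, abs_mul]
    refine mul_le_mul_of_nonneg_right ?_ (abs_nonneg _)
    exact_mod_cast hh v
  refine h1.trans ?_
  rw [← Finset.mul_sum]
  linarith

/-- The distribution functions of the field with the boundary values `ξ`. -/
theorem arcs_lim {κ : ℝ} (hJ : JG.JordanPart κ) {D : Set (ℝ × ℝ)} (hD : JordanDomain D)
    {δ : ℕ → ℝ} {N : ℕ → ℕ} {p : ∀ n, ZMod (N n) → ℤ × ℤ} {S : ℕ → Finset ((ℤ × ℤ) × Bool)}
    (hA : JG.Approx D δ N p S) (ξ : ∀ n, ZMod (N n) → ℤ) (hξ : ∀ n i, ξ n i = 1 ∨ ξ n i = -1)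
    {φ : ℝ × ℝ → ℝ} (hφ : TestOn D φ) (t : ℝ) {ε : ℝ} (hε : 0 < ε) :
    ∀ᶠ n in atTop,
      (gaussianReal 0 (κ * V D φ).toNNReal).real (Set.Ioi (t + 2 * ∫ z, |φ z|)) - ε ≤
        (uniformOn {h | h ∈ Heights (p n) (S n) ∧ ∀ i, h (p n i) = ξ n i}).real
          {h | t ≤ fld (S n) (δ n) φ h} ∧
      (uniformOn {h | h ∈ Heights (p n) (S n) ∧ ∀ i, h (p n i) = ξ n i}).real
          {h | t ≤ fld (S n) (δ n) φ h} ≤
        (gaussianReal 0 (κ * V D φ).toNNReal).real (Set.Ici (t - 2 * ∫ z, |φ z|)) + ε := by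
  set M : ℝ := ∫ z, |φ z| with hM
  set γ := gaussianReal 0 (κ * V D φ).toNNReal with hγ
  obtain ⟨hL, hconv⟩ := hJ D hD δ N p S hA
  obtain ⟨-, hT⟩ := hconv φ hφ
  have hT3 := hT.tendsto
  have hup : ∀ᶠ n in atTop, ((JG.law (p n) (S n)).map (fld (S n) (δ n) φ)).real
      (Set.Ici (t - 2 * M)) < γ.real (Set.Ici (t - 2 * M)) + ε := by
    have h1 := ProbabilityMeasure.limsup_measure_closed_le_of_tendsto hT3
      (isClosed_Ici (a := t - 2 * M))
    have h2 : limsup (fun n => ((JG.law (p n) (S n)).map (fld (S n) (δ n) φ))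
        (Set.Ici (t - 2 * M))) atTop < γ (Set.Ici (t - 2 * M)) + ENNReal.ofReal ε := by
      refine lt_of_le_of_lt h1 ?_
      change (γ.map id) _ < _
      rw [Measure.map_id]
      exact ENNReal.lt_add_right (measure_ne_top _ _) (by simpa using hε)
    filter_upwards [eventually_lt_of_limsup_lt h2] with n hn
    have h3 : IsProbabilityMeasure ((JG.law (p n) (S n)).map (fld (S n) (δ n) φ)) :=
      Measure.isProbabilityMeasure_map (hT.forall_aemeasurable n)
    have h4 := (ENNReal.toReal_lt_toReal (measure_ne_top _ _) (by finiteness)).2 hn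
    rw [ENNReal.toReal_add (measure_ne_top _ _) ENNReal.ofReal_ne_top,
      ENNReal.toReal_ofReal hε.le] at h4
    exact h4
  have hlo : ∀ᶠ n in atTop, γ.real (Set.Ioi (t + 2 * M)) - ε <
      ((JG.law (p n) (S n)).map (fld (S n) (δ n) φ)).real (Set.Ioi (t + 2 * M)) := by
    have h1 := ProbabilityMeasure.le_liminf_measure_open_of_tendsto hT3
      (isOpen_Ioi (a := t + 2 * M))
    by_cases h0 : γ.real (Set.Ioi (t + 2 * M)) - ε < 0
    · exact Eventually.of_forall fun n => h0.trans_le measureReal_nonneg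
    · rw [not_lt] at h0
      have h2 : ENNReal.ofReal (γ.real (Set.Ioi (t + 2 * M)) - ε) <
          liminf (fun n => ((JG.law (p n) (S n)).map (fld (S n) (δ n) φ))
            (Set.Ioi (t + 2 * M))) atTop := by
        refine lt_of_lt_of_le ?_ h1
        change _ < (γ.map id) _
        rw [Measure.map_id, ENNReal.ofReal_lt_iff_lt_toReal h0 (measure_ne_top _ _)]
        change _ < γ.real _
        linarith
      filter_upwards [eventually_lt_of_lt_liminf h2] with n hn
      have h3 : IsProbabilityMeasure ((JG.law (p n) (S n)).map (fld (S n) (δ n) φ)) :=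
        Measure.isProbabilityMeasure_map (hT.forall_aemeasurable n)
      exact (ENNReal.ofReal_lt_iff_lt_toReal h0 (measure_ne_top _ _)).1 hn
  filter_upwards [fld_ev hA hφ, hup, hlo] with n hn h1 h2
  obtain ⟨I, w, hw, hfld⟩ := hn
  have hmeas : Measurable (fld (S n) (δ n) φ) := by
    have : fld (S n) (δ n) φ = fun h => ∑ v ∈ I, (h v : ℝ) * w v := funext hfld
    rw [this]
    exact lin_meas I w
  obtain ⟨Q, q1, q2, q3⟩ := coupling (p n) (S n) (hA.1 n).2.1 (hA.1 n).2.2 (ξ n) (hξ n)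
  have hQ : IsProbabilityMeasure Q := by
    have : IsProbabilityMeasure (Q.map Prod.snd) := by
      rw [q2]
      exact hL n
    exact (Measure.isProbabilityMeasure_map_iff measurable_snd.aemeasurable).1 this
  rw [measureReal_def, Measure.map_apply hmeas measurableSet_Ici] at h1
  rw [measureReal_def (μ := (JG.law (p n) (S n)).map (fld (S n) (δ n) φ)),
    Measure.map_apply hmeas measurableSet_Ioi] at h2
  unfold JG.law at h1 h2
  rw [← q2, Measure.map_apply measurable_snd (hmeas measurableSet_Ici)] at h1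
  rw [← q2, Measure.map_apply measurable_snd (hmeas measurableSet_Ioi)] at h2
  have e : (uniformOn {h | h ∈ Heights (p n) (S n) ∧ ∀ i, h (p n i) = ξ n i}).real
      {h | t ≤ fld (S n) (δ n) φ h} = (Q (Prod.fst ⁻¹' {h | t ≤ fld (S n) (δ n) φ h})).toReal := by
    rw [measureReal_def, ← q1, Measure.map_apply measurable_fst (measurableSet_le measurable_const hmeas)]
  rw [e]
  constructor
  · refine h2.le.trans (ENNReal.toReal_mono (measure_ne_top _ _) (measure_mono_ae ?_))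
    filter_upwards [q3] with q hq hq'
    have h5 := lin_close hw hq
    rw [← hfld, ← hfld, abs_le] at h5
    have h6 : t + 2 * M < fld (S n) (δ n) φ q.2 := hq'
    change t ≤ fld (S n) (δ n) φ q.1
    linarith [h5.1]
  · refine (ENNReal.toReal_mono (measure_ne_top _ _) (measure_mono_ae ?_)).trans h1.le
    filter_upwards [q3] with q hq hq'
    have h5 := lin_close hw hq
    rw [← hfld, ← hfld, abs_le] at h5
    have h6 : t ≤ fld (S n) (δ n) φ q.1 := hq'
    change t - 2 * M ≤ fld (S n) (δ n) φ q.2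
    linarith [h5.2]

end Vale.Agent.P153.F.Dom.Arcs
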