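import Vale.Agent.P153.F.ArcsLim

/-!
# P153-F: the normalisation for prescribed boundary values `±1`

If, for boundary values `ξ ∈ {1, -1}` (in particular the two arcs of Q1), some normalisation
`(h_δ(φ) - m_δ) / c_δ` converges in law to `N(0, a² V)`, `a > 0`, then `c_δ → √κ / a`.
-/

set_option autoImplicit false

open MeasureTheory ProbabilityTheory Filter Topology

namespace Vale.Agent.P153.F.Dom.Arcs

open Vale.Agent.P145.PT (V TestOn)


/-- Convergence of types with a bounded perturbation. -/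
theorem types {Φ : ℝ → ℝ} (hΦ : StrictAnti Φ) {G : ℕ → ℝ → ℝ} (hG : ∀ n, Antitone (G n))
    {σ s K : ℝ} (hσ : 0 < σ) (hs : 0 < s) (hK : 0 ≤ K) {c m : ℕ → ℝ}
    (h1 : ∀ t ε, 0 < ε → ∀ᶠ n in atTop, Φ ((t + K) / σ) - ε ≤ G n t ∧
      G n t ≤ Φ ((t - K) / σ) + ε)
    (h2 : ∀ u, Tendsto (fun n => G n (m n + c n * (s * u))) atTop (𝓝 (Φ u))) :
    Tendsto c atTop (𝓝 (σ / s)) := by
  have key : ∀ u : ℝ, ∀ᶠ n in atTop, σ * (u - 1) - K ≤ m n + c n * (s * u) ∧
      m n + c n * (s * u) ≤ σ * (u + 1) + K := by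
    intro u
    have a1 : Φ u < Φ (u - 1) := hΦ (by linarith)
    have a2 : Φ (u + 1) < Φ u := hΦ (by linarith)
    have b1 := h1 (σ * (u - 1) - K) ((Φ (u - 1) - Φ u) / 2) (by linarith)
    have b2 := h1 (σ * (u + 1) + K) ((Φ u - Φ (u + 1)) / 2) (by linarith)
    have c1 := (tendsto_order.1 (h2 u)).2 (Φ u + (Φ (u - 1) - Φ u) / 2) (by linarith)
    have c2 := (tendsto_order.1 (h2 u)).1 (Φ u - (Φ u - Φ (u + 1)) / 2) (by linarith)
    have e1 : (σ * (u - 1) - K + K) / σ = u - 1 := by field_simp; ring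
    have e2 : (σ * (u + 1) + K - K) / σ = u + 1 := by field_simp; ring
    filter_upwards [b1, b2, c1, c2] with n hb1 hb2 hc1 hc2
    rw [e1] at hb1
    rw [e2] at hb2
    constructor
    · by_contra hcon
      have := hG n (not_le.1 hcon).le
      linarith [hb1.1]
    · by_contra hcon
      have := hG n (not_le.1 hcon).le
      linarith [hb2.2]
  have key2 : ∀ u : ℝ, 0 < u → ∀ᶠ n in atTop, |c n * s - σ| ≤ (σ + K) / u := by
    intro u hu
    filter_upwards [key u, key (-u)] with n h3 h4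
    have e : |c n * s - σ| * u = |(c n * s - σ) * u| := by rw [abs_mul, abs_of_pos hu]
    rw [le_div_iff₀ hu, e, abs_le]
    constructor
    · nlinarith [h3.1, h4.2]
    · nlinarith [h3.2, h4.1]
  have key3 : Tendsto (fun n => c n * s) atTop (𝓝 σ) := by
    rw [Metric.tendsto_atTop']
    intro ε hε
    have hu : 0 < 2 * (σ + K) / ε := by positivity
    obtain ⟨N, hN⟩ := eventually_atTop.1 (key2 _ hu)
    refine ⟨N, fun n hn => ?_⟩
    rw [Real.dist_eq]
    refine lt_of_le_of_lt (hN n (le_of_lt hn)) ?_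
    rw [div_div_eq_mul_div, div_lt_iff₀ (by positivity)]
    nlinarith
  have := key3.div_const s
  refine this.congr fun n => ?_
  field_simp

/-- The Gaussian tail. -/
noncomputable def tail (x : ℝ) : ℝ := (gaussianReal 0 1).real (Set.Ici x)

theorem tail_anti : StrictAnti tail := by
  intro x y hxy
  have h1 : Set.Ici x = Set.Ico x y ∪ Set.Ici y := (Set.Ico_union_Ici_eq_Ici hxy.le).symm
  have h2 : Disjoint (Set.Ico x y) (Set.Ici y) := by
    rw [Set.disjoint_left]
    intro z hz hz'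
    exact absurd hz.2 (not_lt.2 hz')
  have h3 : 0 < (gaussianReal 0 1).real (Set.Ico x y) := by
    rw [measureReal_def, ENNReal.toReal_pos_iff]
    refine ⟨?_, measure_lt_top _ _⟩
    rw [pos_iff_ne_zero]
    intro h0
    have := gaussianReal_absolutelyContinuous' 0 (one_ne_zero) h0
    rw [Real.volume_Ico, ENNReal.ofReal_eq_zero] at this
    linarith
  unfold tail
  rw [h1, measureReal_union h2 measurableSet_Ici]
  linarith

theorem gauss_Ici {v : ℝ} (hv : 0 < v) (t : ℝ) :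
    (gaussianReal 0 v.toNNReal).real (Set.Ici t) = tail (t / √v) := by
  have h1 : (gaussianReal 0 1).map (fun x => √v * x) = gaussianReal 0 v.toNNReal := by
    rw [gaussianReal_map_const_mul]
    congr 1
    · simp
    · apply NNReal.eq
      simp [Real.sq_sqrt hv.le, Real.coe_toNNReal _ hv.le]
  have hs : 0 < √v := Real.sqrt_pos.2 hv
  unfold tail
  rw [← h1, measureReal_def, Measure.map_apply (by fun_prop) measurableSet_Ici, measureReal_def]
  congr 2
  ext x
  simp only [Set.mem_preimage, Set.mem_Ici]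
  rw [div_le_iff₀ hs, mul_comm]

theorem gauss_Ioi {v : ℝ} (hv : 0 < v) (t : ℝ) :
    (gaussianReal 0 v.toNNReal).real (Set.Ioi t) = tail (t / √v) := by
  rw [← gauss_Ici hv]
  have : NullSingletonClass (gaussianReal 0 v.toNNReal) := nullSingletonClass_gaussianReal (by
    simpa using hv)
  exact measureReal_congr Ioi_ae_eq_Ici


/-- Convergence in law to a Gaussian variable: the tails. -/
theorem toG_tail {μ : ℕ → Measure (ℤ × ℤ → ℤ)} {hμ : ∀ i, IsProbabilityMeasure (μ i)}
    {X : ℕ → (ℤ × ℤ → ℤ) → ℝ} {v : ℝ} (hv : 0 < v) (h : JG.ToG atTop μ hμ X v) (t : ℝ) :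
    Tendsto (fun n => (μ n).real {h | t ≤ X n h}) atTop (𝓝 (tail (t / √v))) := by
  obtain ⟨-, h1⟩ := h
  have : NullSingletonClass (gaussianReal 0 v.toNNReal) := nullSingletonClass_gaussianReal (by
    simpa using hv)
  have h2 := ProbabilityMeasure.tendsto_measure_of_null_frontier_of_tendsto' h1.tendsto
    (E := Set.Ici t) (by
      change ((gaussianReal 0 v.toNNReal).map id) _ = 0
      rw [Measure.map_id, frontier_Ici]
      exact measure_singleton t)
  have hf : (gaussianReal 0 v.toNNReal).map id (Set.Ici t) ≠ ⊤ := by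
    rw [Measure.map_id]
    exact measure_ne_top _ _
  have h3 := (ENNReal.tendsto_toReal hf).comp h2
  have e : ((gaussianReal 0 v.toNNReal).map id (Set.Ici t)).toReal = tail (t / √v) := by
    rw [Measure.map_id, ← gauss_Ici hv]
    rfl
  change Tendsto _ _ (𝓝 ((gaussianReal 0 v.toNNReal).map id (Set.Ici t)).toReal) at h3
  rw [e] at h3
  refine h3.congr fun n => ?_
  change (((μ n).map (X n)) (Set.Ici t)).toReal = _
  rw [Measure.map_apply_of_aemeasurable (h1.forall_aemeasurable n) measurableSet_Ici]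
  rfl

/-- The only possible normalisation: if `(h_δ(φ) - m_δ) / c_δ → N(0, a² V(φ))` in law for the
boundary values `ξ`, then `c_δ → √κ / a`. -/
theorem norm_of_conv {κ : ℝ} (hJ : JG.JordanPart κ) (hκ : 0 < κ) {D : Set (ℝ × ℝ)}
    (hD : JordanDomain D) {δ : ℕ → ℝ} {N : ℕ → ℕ} {p : ∀ n, ZMod (N n) → ℤ × ℤ}
    {S : ℕ → Finset ((ℤ × ℤ) × Bool)} (hA : JG.Approx D δ N p S) (ξ : ∀ n, ZMod (N n) → ℤ)
    (hξ : ∀ n i, ξ n i = 1 ∨ ξ n i = -1) {φ : ℝ × ℝ → ℝ} (hφ : TestOn D φ) (hV : 0 < V D φ)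
    {a : ℝ} (ha : 0 < a) {c m : ℕ → ℝ} (hc : ∀ n, 0 < c n)
    {hL : ∀ n, IsProbabilityMeasure
      (uniformOn {h | h ∈ Heights (p n) (S n) ∧ ∀ i, h (p n i) = ξ n i})}
    (h : JG.ToG atTop (fun n => uniformOn {h | h ∈ Heights (p n) (S n) ∧ ∀ i, h (p n i) = ξ n i})
      hL (fun n h => (fld (S n) (δ n) φ h - m n) / c n) (a ^ 2 * V D φ)) :
    Tendsto c atTop (𝓝 (√κ / a)) := by
  have hv1 : 0 < κ * V D φ := mul_pos hκ hV
  have hv2 : 0 < a ^ 2 * V D φ := by positivity
  have hs1 : 0 < √(κ * V D φ) := Real.sqrt_pos.2 hv1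
  have hs2 : 0 < √(a ^ 2 * V D φ) := Real.sqrt_pos.2 hv2
  have e : √(κ * V D φ) / √(a ^ 2 * V D φ) = √κ / a := by
    have := Real.sqrt_pos.2 hV
    rw [Real.sqrt_mul hκ.le, Real.sqrt_mul (sq_nonneg a), Real.sqrt_sq ha.le]
    field_simp
  rw [← e]
  refine types tail_anti (G := fun n t =>
    (uniformOn {h | h ∈ Heights (p n) (S n) ∧ ∀ i, h (p n i) = ξ n i}).real
      {h | t ≤ fld (S n) (δ n) φ h}) ?_ hs1 hs2 (K := 2 * ∫ z, |φ z|)
    (by positivity) (m := m) ?_ ?_
  · intro n t t' ht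
    have := hL n
    exact measureReal_mono fun h hh => le_trans ht hh
  · intro t ε hε
    filter_upwards [arcs_lim hJ hD hA ξ hξ hφ t hε] with n hn
    rw [gauss_Ioi hv1, gauss_Ici hv1] at hn
    exact hn
  · intro u
    have h1 := toG_tail hv2 h (√(a ^ 2 * V D φ) * u)
    have e2 : √(a ^ 2 * V D φ) * u / √(a ^ 2 * V D φ) = u := by field_simp
    rw [e2] at h1
    refine h1.congr fun n => ?_
    congr 1
    ext x
    change √(a ^ 2 * V D φ) * u ≤ (fld (S n) (δ n) φ x - m n) / c n ↔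
      m n + c n * (√(a ^ 2 * V D φ) * u) ≤ fld (S n) (δ n) φ x
    rw [le_div_iff₀ (hc n)]
    constructor <;> intro h <;> linarith

end Vale.Agent.P153.F.Dom.Arcs
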