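import Vale.Agent.P153.F.Explore

/-!
# P153, block F: moments of the free ensembles

Association of the absolute value with products of nonnegative linear functionals of the heights,
for odd heights with free boundary values `± 1`.
-/

namespace Vale.Agent.P153.F

open Finset Vale.Agent.P153

/-- Product of linear functionals. -/
noncomputable def pl {k : ℕ} (I : Finset Pt) (φ : Fin k → Pt → ℝ) (h : Hg) : ℝ :=
  ∏ i, ∑ x ∈ I, φ i x * (h x : ℝ)

open Classical in
/-- Moments of signs given the absolute value. -/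
theorem sum_SGF_prod {k : ℕ} (U : Finset Pt) (a : Hg) (f : Fin k → Pt) :
    ∑ s ∈ SGF U a, ∏ i, (((s (f i) : ℤˣ) : ℤ) : ℝ)
      = if (∀ s ∈ SG U a, ∏ i, s (f i) = 1) then (nSG U a : ℝ) else 0 := by
  have hprod : ∀ s : Pt → ℤˣ, ∏ i, (((s (f i) : ℤˣ) : ℤ) : ℝ) =
      (((∏ i, s (f i) : ℤˣ) : ℤ) : ℝ) := by
    intro s
    push_cast
    rfl
  split_ifs with h
  · rw [← card_SGF, Finset.card_eq_sum_ones, Nat.cast_sum]
    apply Finset.sum_congr rfl
    intro s hs
    rw [hprod, h s (mem_SGF.1 hs)]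
    simp
  · push Not at h
    obtain ⟨t, ht, hxy⟩ := h
    have ht1 : ∏ i, t (f i) = -1 := by
      rcases Int.units_eq_one_or (∏ i, t (f i)) with h1 | h1
      · exact absurd h1 hxy
      · exact h1
    have key : ∑ s ∈ SGF U a, ∏ i, (((s (f i) : ℤˣ) : ℤ) : ℝ)
        = ∑ s ∈ SGF U a, ∏ i, ((((t * s) (f i) : ℤˣ) : ℤ) : ℝ) := by
      symm
      apply Finset.sum_nbij' (fun s => t * s) (fun s => t⁻¹ * s)
      · intro s hs
        exact mem_SGF.2 (mul_mem ht (mem_SGF.1 hs))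
      · intro s hs
        exact mem_SGF.2 (mul_mem (inv_mem ht) (mem_SGF.1 hs))
      · intro s _; simp
      · intro s _; simp
      · intro s _; rfl
    have key2 : ∀ s ∈ SGF U a, ∏ i, ((((t * s) (f i) : ℤˣ) : ℤ) : ℝ)
        = - ∏ i, (((s (f i) : ℤˣ) : ℤ) : ℝ) := by
      intro s _
      rw [hprod, hprod]
      have : ∏ i, (t * s) (f i) = - ∏ i, s (f i) := by
        simp only [Pi.mul_apply, Finset.prod_mul_distrib, ht1]
        simp
      rw [this]
      push_cast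
      ring
    rw [Finset.sum_congr rfl key2, Finset.sum_neg_distrib] at key
    linarith

open Classical in
/-- The conditional expectation of `pl` given the absolute value. -/
noncomputable def Fk {k : ℕ} (U I : Finset Pt) (φ : Fin k → Pt → ℝ) (a : Hg) : ℝ :=
  ∑ f ∈ Fintype.piFinset (fun _ : Fin k => I),
    (∏ i, φ i (f i) * ((max (a (f i)) 1 : ℤ) : ℝ)) *
      (if ∀ s ∈ SG U a, ∏ i, s (f i) = 1 then 1 else 0)

variable {k : ℕ} {D D' U I : Finset Pt} {φ : Fin k → Pt → ℝ}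

theorem term_nonneg (hφ : ∀ i, ∀ x ∈ I, 0 ≤ φ i x) (a : Hg) {f : Fin k → Pt}
    (hf : f ∈ Fintype.piFinset (fun _ : Fin k => I)) :
    0 ≤ ∏ i, φ i (f i) * ((max (a (f i)) 1 : ℤ) : ℝ) := by
  refine Finset.prod_nonneg fun i _ => mul_nonneg (hφ i _ (Fintype.mem_piFinset.1 hf i)) ?_
  exact_mod_cast (zero_le_one.trans (le_max_right (a (f i)) 1))

theorem Fk_nonneg (hφ : ∀ i, ∀ x ∈ I, 0 ≤ φ i x) (a : Hg) : 0 ≤ Fk U I φ a := by
  classical
  refine Finset.sum_nonneg fun f hf => mul_nonneg (term_nonneg hφ a hf) ?_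
  split_ifs <;> norm_num

theorem Fk_mono (hφ : ∀ i, ∀ x ∈ I, 0 ≤ φ i x) : Monotone (Fk U I φ) := by
  classical
  intro a b hab
  refine Finset.sum_le_sum fun f hf => ?_
  have h1 : ∏ i, φ i (f i) * ((max (a (f i)) 1 : ℤ) : ℝ) ≤
      ∏ i, φ i (f i) * ((max (b (f i)) 1 : ℤ) : ℝ) := by
    refine Finset.prod_le_prod (fun i _ => mul_nonneg (hφ i _ (Fintype.mem_piFinset.1 hf i)) ?_)
      fun i _ => mul_le_mul_of_nonneg_left ?_ (hφ i _ (Fintype.mem_piFinset.1 hf i))
    · exact_mod_cast (zero_le_one.trans (le_max_right (a (f i)) 1))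
    · exact_mod_cast max_le_max (hab (f i)) le_rfl
  by_cases h : ∀ s ∈ SG U a, ∏ i, s (f i) = 1
  · have h' : ∀ s ∈ SG U b, ∏ i, s (f i) = 1 := fun s hs => h s (SG_anti U hab hs)
    rw [if_pos h, if_pos h', mul_one, mul_one]
    exact h1
  · rw [if_neg h, mul_zero]
    refine mul_nonneg (term_nonneg hφ b hf) ?_
    split_ifs <;> norm_num

theorem sum_signs (a : Hg) (ha : ∀ x, 1 ≤ a x) :
    ∑ s ∈ SGF U a, pl I φ (fun x => (s x : ℤ) * a x) = (nSG U a : ℝ) * Fk U I φ a := by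
  classical
  have h1 : ∀ s : Pt → ℤˣ, pl I φ (fun x => (s x : ℤ) * a x) =
      ∑ f ∈ Fintype.piFinset (fun _ : Fin k => I),
        (∏ i, φ i (f i) * ((max (a (f i)) 1 : ℤ) : ℝ)) * ∏ i, (((s (f i) : ℤˣ) : ℤ) : ℝ) := by
    intro s
    unfold pl
    rw [Finset.prod_univ_sum]
    refine Finset.sum_congr rfl fun f _ => ?_
    rw [← Finset.prod_mul_distrib]
    refine Finset.prod_congr rfl fun i _ => ?_
    rw [max_eq_left (ha (f i))]
    push_cast
    ring
  rw [Finset.sum_congr rfl fun s _ => h1 s, Finset.sum_comm]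
  unfold Fk
  rw [Finset.mul_sum]
  refine Finset.sum_congr rfl fun f _ => ?_
  rw [← Finset.mul_sum, sum_SGF_prod]
  split_ifs <;> ring

/-- Absolute value. -/
def ab (h : Hg) : Hg := fun x => |h x|

theorem ab_signs {s : Pt → ℤˣ} {a : Hg} (ha : ∀ x, 1 ≤ a x) :
    ab (fun x => (s x : ℤ) * a x) = a := by
  funext x
  exact abs_units_mul (s x) (ha x)

theorem sum_free_pl (hDU : ∀ x ∈ D, x ∈ U) (X : Hg → ℝ) :
    ∑ h ∈ FreeF D U, X (ab h) * pl I φ h =
      ∑ a ∈ AbsF D, (nSG U a : ℝ) * X a * Fk U I φ a := by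
  rw [sum_free hDU fun h => X (ab h) * pl I φ h]
  refine Finset.sum_congr rfl fun a ha => ?_
  have ha1 := (mem_AbsF.1 ha).2.1
  have h1 : ∀ s ∈ SGF U a, X (ab fun x => (s x : ℤ) * a x) * pl I φ (fun x => (s x : ℤ) * a x) =
      X a * pl I φ (fun x => (s x : ℤ) * a x) := by
    intro s _
    rw [ab_signs ha1]
  rw [Finset.sum_congr rfl h1, ← Finset.mul_sum, sum_signs a ha1]
  ring

theorem sum_free_ab (hDU : ∀ x ∈ D, x ∈ U) (X : Hg → ℝ) :
    ∑ h ∈ FreeF D U, X (ab h) = ∑ a ∈ AbsF D, (nSG U a : ℝ) * X a := by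
  rw [sum_free hDU fun h => X (ab h)]
  refine Finset.sum_congr rfl fun a ha => ?_
  have ha1 := (mem_AbsF.1 ha).2.1
  have h1 : ∀ s ∈ SGF U a, X (ab fun x => (s x : ℤ) * a x) = X a := by
    intro s _
    rw [ab_signs ha1]
  rw [Finset.sum_congr rfl h1, Finset.sum_const, card_SGF, nsmul_eq_mul]

/-- Master inequality. -/
theorem master (hD : D' ⊆ D) (hDU : ∀ x ∈ D, x ∈ U) (X₁ X₂ : Hg → ℝ) (h1 : ∀ a, 0 ≤ X₁ a)
    (h2 : ∀ a, 0 ≤ X₂ a)
    (hX : ∀ a ∈ AbsConf D', ∀ b ∈ AbsConf D, X₁ a * X₂ b ≤ X₁ (a ⊓ b) * X₂ (a ⊔ b))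
    (hφ : ∀ i, ∀ x ∈ I, 0 ≤ φ i x) :
    (∑ h ∈ FreeF D' U, X₁ (ab h) * pl I φ h) * (∑ h ∈ FreeF D U, X₂ (ab h)) ≤
      (∑ h ∈ FreeF D' U, X₁ (ab h)) * ∑ h ∈ FreeF D U, X₂ (ab h) * pl I φ h := by
  classical
  have hD'U : ∀ x ∈ D', x ∈ U := fun x hx => hDU x (hD hx)
  rw [sum_free_pl hD'U, sum_free_pl hDU, sum_free_ab hD'U, sum_free_ab hDU]
  let w₁ : Hg → ℝ := fun a => if a ∈ AbsF D' then (nSG U a : ℝ) * X₁ a else 0
  let w₂ : Hg → ℝ := fun a => if a ∈ AbsF D then (nSG U a : ℝ) * X₂ a else 0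
  have hw₁ : ∀ a, 0 ≤ w₁ a := fun a => by
    dsimp [w₁]
    split_ifs
    · exact mul_nonneg (by positivity) (h1 a)
    · exact le_rfl
  have hw₂ : ∀ a, 0 ≤ w₂ a := fun a => by
    dsimp [w₂]
    split_ifs
    · exact mul_nonneg (by positivity) (h2 a)
    · exact le_rfl
  have key := holley_weighted w₁ w₂ (Fk U I φ) (AbsF D') (AbsF D) hw₁ hw₂
    (Fk_nonneg hφ) (Fk_mono hφ)
    (fun a ha => by simp [w₁, ha]) (fun a ha => by simp [w₂, ha])
    (by
      intro a b
      by_cases ha : a ∈ AbsF D'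
      · by_cases hb : b ∈ AbsF D
        · have hinf : a ⊓ b ∈ AbsF D' := by
            rw [mem_AbsF] at *
            refine ⟨ha.1.inf hb.1, fun z => ?_, fun z hz => ?_⟩
            · exact le_min (ha.2.1 z) (hb.2.1 z)
            · have := ha.2.2 z hz
              have h2 := hb.2.1 z
              simp only [Pi.inf_apply]
              rw [this]
              exact min_eq_left h2
          have hsup : a ⊔ b ∈ AbsF D := by
            rw [mem_AbsF] at *
            refine ⟨ha.1.sup hb.1, fun z => ?_, fun z hz => ?_⟩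
            · exact (ha.2.1 z).trans (le_max_left _ _)
            · have h1 := ha.2.2 z (fun hz' => hz (hD hz'))
              have h2 := hb.2.2 z hz
              simp [h1, h2]
          simp only [w₁, w₂, ha, hb, hinf, hsup, if_true]
          have e1 : (nSG U a : ℝ) * nSG U b ≤ nSG U (a ⊓ b) * nSG U (a ⊔ b) := by
            exact_mod_cast nSG_mul U a b
          have e2 := hX a (mem_AbsF.1 ha) b (mem_AbsF.1 hb)
          calc (nSG U a : ℝ) * X₁ a * ((nSG U b : ℝ) * X₂ b)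
              = ((nSG U a : ℝ) * nSG U b) * (X₁ a * X₂ b) := by ring
            _ ≤ ((nSG U (a ⊓ b) : ℝ) * nSG U (a ⊔ b)) * (X₁ (a ⊓ b) * X₂ (a ⊔ b)) :=
                mul_le_mul e1 e2 (mul_nonneg (h1 _) (h2 _)) (by positivity)
            _ = _ := by ring
        · have : w₁ a * w₂ b = 0 := by simp [w₂, hb]
          rw [this]
          exact mul_nonneg (hw₁ _) (hw₂ _)
      · have : w₁ a * w₂ b = 0 := by simp [w₁, ha]
        rw [this]
        exact mul_nonneg (hw₁ _) (hw₂ _))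
  have e1 : ∑ a ∈ AbsF D', w₁ a * Fk U I φ a =
      ∑ a ∈ AbsF D', (nSG U a : ℝ) * X₁ a * Fk U I φ a :=
    Finset.sum_congr rfl fun a ha => by simp [w₁, ha]
  have e2 : ∑ a ∈ AbsF D, w₂ a * Fk U I φ a =
      ∑ a ∈ AbsF D, (nSG U a : ℝ) * X₂ a * Fk U I φ a :=
    Finset.sum_congr rfl fun a ha => by simp [w₂, ha]
  have e3 : ∑ a ∈ AbsF D', w₁ a = ∑ a ∈ AbsF D', (nSG U a : ℝ) * X₁ a :=
    Finset.sum_congr rfl fun a ha => by simp [w₁, ha]
  have e4 : ∑ a ∈ AbsF D, w₂ a = ∑ a ∈ AbsF D, (nSG U a : ℝ) * X₂ a :=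
    Finset.sum_congr rfl fun a ha => by simp [w₂, ha]
  rw [e1, e2, e3, e4] at key
  exact key

/-! ### Change of the window -/

/-- Additional free signs do not change averages. -/
theorem sum_window {U' : Finset Pt} (hU : U ⊆ U') (hDU : D ⊆ U)
    (hN : ∀ x ∈ D, ∀ y, Adj x y → y ∈ U) (F : Hg → ℝ)
    (hF : ∀ h h' : Hg, (∀ x ∈ U, h x = h' x) → F h = F h') :
    ∃ c : ℝ, 0 < c ∧ (∑ h ∈ FreeF D U', F h) = c * ∑ h ∈ FreeF D U, F h ∧
      ((#(FreeF D U') : ℕ) : ℝ) = c * #(FreeF D U) := by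
  classical
  set T : Finset Hg := (FreeF ∅ U').filter fun t => ∀ x ∈ U, t x = 1 with hT
  have hT0 : (fun _ => 1 : Hg) ∈ T := by
    rw [hT, Finset.mem_filter, mem_FreeF]
    exact ⟨⟨⟨fun _ => odd_one, fun x y _ => by simp⟩, fun x _ => by simp, fun x _ => rfl⟩,
      fun x _ => rfl⟩
  have key : ∀ G : Hg → ℝ, (∀ h h' : Hg, (∀ x ∈ U, h x = h' x) → G h = G h') →
      ∑ h ∈ FreeF D U', G h = (#T : ℝ) * ∑ h ∈ FreeF D U, G h := by
    intro G hG
    have h1 : (#T : ℝ) * ∑ h ∈ FreeF D U, G h = ∑ p ∈ FreeF D U ×ˢ T, G p.1 := by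
      rw [Finset.sum_product, Finset.mul_sum]
      refine Finset.sum_congr rfl fun g _ => ?_
      show (#T : ℝ) * G g = ∑ _t ∈ T, G g
      rw [Finset.sum_const, nsmul_eq_mul]
    rw [h1]
    symm
    refine Finset.sum_nbij' (i := fun p => comb (U : Set Pt) p.1 p.2)
      (j := fun h => (comb (U : Set Pt) h (fun _ => 1), comb (U : Set Pt) (fun _ => 1) h))
      ?_ ?_ ?_ ?_ ?_
    · rintro ⟨g, t⟩ hp
      obtain ⟨hg, ht⟩ := Finset.mem_product.1 hp
      simp only at hg ht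
      rw [mem_FreeF] at hg ⊢
      rw [hT, Finset.mem_filter, mem_FreeF] at ht
      obtain ⟨ht, ht2⟩ := ht
      have habs : ∀ x, x ∉ D → |comb (U : Set Pt) g t x| = 1 := by
        intro x hx
        by_cases hxU : x ∈ (U : Set Pt)
        · rw [comb_in hxU]; exact hg.2.1 x hx
        · rw [comb_out hxU]; exact ht.2.1 x (by simp)
      refine ⟨⟨fun x => ?_, fun x y hxy => ?_⟩, habs, fun x hx => ?_⟩
      · by_cases hxU : x ∈ (U : Set Pt)
        · rw [comb_in hxU]; exact hg.1.1 x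
        · rw [comb_out hxU]; exact ht.1.1 x
      · have hcase : ∀ x y, Adj x y → x ∈ D →
            |comb (U : Set Pt) g t x - comb (U : Set Pt) g t y| ≤ 2 := by
          intro x y hxy hx
          have hxU : x ∈ (U : Set Pt) := hDU hx
          have hyU : y ∈ (U : Set Pt) := hN x hx y hxy
          rw [comb_in hxU, comb_in hyU]
          exact hg.1.2 x y hxy
        by_cases hx : x ∈ D
        · exact hcase x y hxy hx
        · by_cases hy : y ∈ D
          · rw [abs_sub_comm]; exact hcase y x hxy.symm hy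
          · have e1 := habs x hx
            have e2 := habs y hy
            rcases abs_eq (zero_le_one' ℤ) |>.1 e1 with e1 | e1 <;>
              rcases abs_eq (zero_le_one' ℤ) |>.1 e2 with e2 | e2 <;> simp [e1, e2]
      · have hxU : x ∉ (U : Set Pt) := fun h => hx (hU h)
        rw [comb_out hxU]
        exact ht.2.2 x hx
    · intro h hh
      rw [mem_FreeF] at hh
      have hUU : ∀ x ∈ U, ∀ y, y ∉ U → Adj x y → |h x| = 1 ∧ |h y| = 1 := by
        intro x hx y hy hxy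
        exact ⟨hh.2.1 x fun hxD => hy (hN x hxD y hxy), hh.2.1 y fun hyD => hy (hDU hyD)⟩
      refine Finset.mem_product.2 ⟨?_, ?_⟩
      · simp only
        rw [mem_FreeF]
        have h1 := comb_mem_left (T := (U : Set Pt)) hh.1
          (fun x y hx hy hxy => hUU x hx y hy hxy)
        refine ⟨h1.1, fun x hx => ?_, fun x hx => comb_out hx⟩
        by_cases hxU : x ∈ (U : Set Pt)
        · rw [comb_in hxU]; exact hh.2.1 x hx
        · rw [comb_out hxU]; exact abs_one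
      · simp only
        rw [hT, Finset.mem_filter, mem_FreeF]
        have h1 := comb_mem_right (T := (U : Set Pt)) hh.1
          (fun x y hx hy hxy => hUU x hx y hy hxy)
        refine ⟨⟨h1.1, fun x _ => ?_, fun x hx => ?_⟩, fun x hx => comb_in hx⟩
        · by_cases hxU : x ∈ (U : Set Pt)
          · rw [comb_in hxU]; exact abs_one
          · rw [comb_out hxU]; exact hh.2.1 x fun hxD => hxU (hDU hxD)
        · have hxU : x ∉ (U : Set Pt) := fun h => hx (hU h)
          rw [comb_out hxU]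
          exact hh.2.2 x hx
    · rintro ⟨g, t⟩ hp
      obtain ⟨hg, ht⟩ := Finset.mem_product.1 hp
      simp only at hg ht
      rw [mem_FreeF] at hg
      rw [hT, Finset.mem_filter, mem_FreeF] at ht
      apply Prod.ext
      · funext x
        by_cases hxU : x ∈ (U : Set Pt)
        · simp only [comb_in hxU]
        · simp only [comb_out hxU]
          exact (hg.2.2 x hxU).symm
      · funext x
        by_cases hxU : x ∈ (U : Set Pt)
        · simp only [comb_in hxU]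
          exact (ht.2 x hxU).symm
        · simp only [comb_out hxU]
    · intro h _
      exact comb_comb
    · rintro ⟨g, t⟩ _
      exact hG _ _ fun x hx => (comb_in (T := (U : Set Pt)) hx).symm
  refine ⟨#T, by exact_mod_cast Finset.card_pos.2 ⟨_, hT0⟩, key F hF, ?_⟩
  have h1 := key (fun _ => 1) fun _ _ _ => rfl
  simpa using h1

theorem ev_window {U' : Finset Pt} (hU : U ⊆ U') (hDU : D ⊆ U)
    (hN : ∀ x ∈ D, ∀ y, Adj x y → y ∈ U) (F : Hg → ℝ)
    (hF : ∀ h h' : Hg, (∀ x ∈ U, h x = h' x) → F h = F h') :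
    ev (FreeF D U') F = ev (FreeF D U) F := by
  obtain ⟨c, hc, h1, h2⟩ := sum_window hU hDU hN F hF
  unfold ev
  rw [h1, h2, mul_div_mul_left _ _ hc.ne']

open Classical in
/-- The interior of a finite set. -/
noncomputable def innF (S : Finset Pt) : Finset Pt := S.filter fun x => ∀ y, Adj x y → y ∈ S

theorem mem_innF {S : Finset Pt} {x : Pt} : x ∈ innF S ↔ x ∈ S ∧ ∀ y, Adj x y → y ∈ S := by
  classical
  simp [innF]

/-- The free ensemble on `S`. -/
theorem mem_free_inn {S : Finset Pt} {h : Hg} : h ∈ FreeF (innF S) S ↔ h ∈ Fre (S : Set Pt) := by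
  rw [mem_FreeF]
  constructor
  · rintro ⟨h1, h2, h3⟩
    refine ⟨h1, fun x hx => h3 x hx, fun x _ hxy => h2 x fun hx => ?_⟩
    obtain ⟨y, hxy, hy⟩ := hxy
    exact hy ((mem_innF.1 hx).2 y hxy)
  · rintro ⟨h1, h2, h3⟩
    refine ⟨h1, fun x hx => ?_, fun x hx => h2 x hx⟩
    by_cases hxS : x ∈ S
    · refine h3 x hxS ?_
      by_contra hcon
      push Not at hcon
      exact hx (mem_innF.2 ⟨hxS, hcon⟩)
    · rw [h2 x hxS, abs_one]

/-- Moments of the free ensemble on `S`. -/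
noncomputable def Mo (S I : Finset Pt) (φ : Fin k → Pt → ℝ) : ℝ :=
  ev (FreeF (innF S) S) (pl I φ)

theorem pl_congr {h h' : Hg} (hh : ∀ x ∈ I, h x = h' x) : pl I φ h = pl I φ h' := by
  unfold pl
  refine Finset.prod_congr rfl fun i _ => Finset.sum_congr rfl fun x hx => ?_
  rw [hh x hx]

theorem innF_mono {S S' : Finset Pt} (h : S ⊆ S') : innF S ⊆ innF S' := fun x hx =>
  mem_innF.2 ⟨h (mem_innF.1 hx).1, fun y hy => h ((mem_innF.1 hx).2 y hy)⟩

theorem innF_subset (S : Finset Pt) : innF S ⊆ S := fun _ hx => (mem_innF.1 hx).1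

theorem Mo_window {S S' : Finset Pt} (h : S ⊆ S') (hI : I ⊆ S) :
    ev (FreeF (innF S) S') (pl I φ) = Mo S I φ :=
  ev_window h (innF_subset S) (fun _ hx => (mem_innF.1 hx).2) _
    fun _ _ hh => pl_congr fun x hx => hh x (hI hx)

/-- Domain monotonicity of the moments. -/
theorem Mo_mono {S S' : Finset Pt} (h : S ⊆ S') (hI : I ⊆ S) (hφ : ∀ i, ∀ x ∈ I, 0 ≤ φ i x) :
    Mo S I φ ≤ Mo S' I φ := by
  rw [← Mo_window h hI]
  have h1 := master (D' := innF S) (D := innF S') (U := S') (I := I) (φ := φ) (innF_mono h)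
    (fun x hx => innF_subset S' hx) (fun _ => 1) (fun _ => 1) (fun _ => zero_le_one)
    (fun _ => zero_le_one) (fun _ _ _ _ => le_rfl) hφ
  simp only [one_mul, Finset.sum_const, nsmul_eq_mul, mul_one] at h1
  have c1 : (0 : ℝ) < #(FreeF (innF S) S') := by exact_mod_cast (nonempty_free _ _).card_pos
  have c2 : (0 : ℝ) < #(FreeF (innF S') S') := by exact_mod_cast (nonempty_free _ _).card_pos
  unfold Mo ev
  rw [div_le_div_iff₀ c1 c2]
  linarith

/-- Upper bound: association. -/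
theorem upper {S S' : Finset Pt} (h : S ⊆ S') (hI : I ⊆ S) (hφ : ∀ i, ∀ x ∈ I, 0 ≤ φ i x)
    (X : Hg → ℝ) (h0 : ∀ a, 0 ≤ X a)
    (hX : ∀ a b : Hg, (∀ x, 1 ≤ a x) → a ≤ b → X b ≤ X a) :
    ∑ h ∈ FreeF (innF S) S, X (ab h) * pl I φ h ≤
      Mo S' I φ * ∑ h ∈ FreeF (innF S) S, X (ab h) := by
  have h1 := master (D' := innF S) (D := innF S) (U := S) (I := I) (φ := φ) Subset.rfl
    (fun x hx => innF_subset S hx) X (fun _ => 1) h0 (fun _ => zero_le_one)
    (fun a ha b hb => by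
      rw [mul_one, mul_one]
      exact hX _ _ (fun x => le_min (ha.2.1 x) (hb.2.1 x)) inf_le_left) hφ
  simp only [one_mul, Finset.sum_const, nsmul_eq_mul, mul_one] at h1
  have c1 : (0 : ℝ) < #(FreeF (innF S) S) := by exact_mod_cast (nonempty_free _ _).card_pos
  have h2 : ∑ h ∈ FreeF (innF S) S, X (ab h) * pl I φ h ≤
      Mo S I φ * ∑ h ∈ FreeF (innF S) S, X (ab h) := by
    unfold Mo ev
    rw [div_mul_eq_mul_div, le_div_iff₀ c1]
    linarith
  exact h2.trans (mul_le_mul_of_nonneg_right (Mo_mono h hI hφ)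
    (Finset.sum_nonneg fun _ _ => h0 _))

/-- Lower bound. -/
theorem lower {S S' : Finset Pt} (h : S' ⊆ S) (hI : I ⊆ S') (hφ : ∀ i, ∀ x ∈ I, 0 ≤ φ i x)
    (X : Hg → ℝ) (h0 : ∀ a, 0 ≤ X a)
    (hX : ∀ a b : Hg, (∀ x, x ∉ S' → a x = b x) → X a = X b) :
    Mo S' I φ * ∑ h ∈ FreeF (innF S) S, X (ab h) ≤
      ∑ h ∈ FreeF (innF S) S, X (ab h) * pl I φ h := by
  have h1 := master (D' := innF S') (D := innF S) (U := S) (I := I) (φ := φ) (innF_mono h)
    (fun x hx => innF_subset S hx) (fun _ => 1) X (fun _ => zero_le_one) h0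
    (fun a ha b hb => by
      rw [one_mul, one_mul]
      refine (hX b (a ⊔ b) fun x hx => ?_).le
      have e1 := ha.2.2 x fun h => hx (innF_subset S' h)
      have e2 := hb.2.1 x
      rw [Pi.sup_apply, e1]
      exact (sup_eq_right.2 e2).symm) hφ
  simp only [one_mul, Finset.sum_const, nsmul_eq_mul, mul_one] at h1
  have c1 : (0 : ℝ) < #(FreeF (innF S') S) := by exact_mod_cast (nonempty_free _ _).card_pos
  rw [← Mo_window h hI]
  unfold ev
  rw [div_mul_eq_mul_div, div_le_iff₀ c1]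
  linarith

end Vale.Agent.P153.F
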