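import Vale.Agent.P153.GFF.PlusMain

/-!
P153-F: the plane measure with its spin representation.
-/

set_option autoImplicit false

namespace Vale.Agent.P153.F

open Filter Topology MeasureTheory
open Vale.Agent.P153.GFF

/-- The plane limit, as the law of the heights of the spin measure `Q`. -/
theorem exists_q : ∃ Q : Measure A.Om, A.IsQ Q ∧ Plane (Q.map A.rc) ∧ Strip.EvLim (Q.map A.rc) ∧
    ∀ (B : Finset (ℤ × ℤ)) (a : ℤ × ℤ → ℤ), Tendsto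
      (fun D : Finset (ℤ × ℤ) => ((Ht D ∩ Pat B a).ncard : ℝ) / (Ht D).ncard)
      (atTop ⊓ 𝓟 {D | A.Cc D}) (𝓝 ((Q.map A.rc).real (Pat B a))) := by
  have h3 : A.S_fkg := A.s_fkg A.s_super A.s_e1
  have h4 : A.S_dom := A.s_dom A.s_e1 h3
  have h9 : A.S_muMix := A.s_muMix h3 h4 A.s_prod
  have h7 : A.S_mu := A.s_mu A.s_e1 h4 A.s_comp
  have h21 : A.S_loc := A.s_loc A.s_rc A.s_bij
  obtain ⟨μ, hμ⟩ := h7
  have h1 := A.s_bk μ hμ.prob (A.s_muInv μ hμ) (h9 μ hμ) (A.s_muFlip μ hμ)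
  obtain ⟨Q, hQ, hF⟩ := A.s_q A.s_e1 A.s_comp A.s_coin A.s_coin2
    ⟨μ, hμ, A.s_far μ hμ.prob h1⟩
  exact ⟨Q, hQ, A.plane_of A.s_rc A.s_sym h21 A.s_cc
    (A.s_rp A.s_rc A.s_bij A.s_cc A.s_rp0) A.s_gibbs
    (A.s_mixP A.s_rc A.s_sym (A.s_mixQ A.s_e1 A.s_coin A.s_coin2 A.s_coin3 h9)) hQ hF,
    A.evLim_of A.s_rc A.s_sym h21 A.s_cc hQ, h21 Q hQ⟩

/-- The conclusion of the plane theorem, for the measure `P'` of the odd heights. -/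
def PlanePart (P' : Measure (ℤ × ℤ → ℤ)) (κ : ℝ) : Prop :=
  (∀ᵐ φ ∂P', φ 0 = 0) ∧
  (∀ D : ℕ → Finset (ℤ × ℤ), (∀ n, CoConn (D n)) → (∀ x, ∀ᶠ n in atTop, x ∈ D n) →
    OddLim P' D) ∧
  OddGibbs P' ∧
  (∀ t, P'.map (shift t) = P') ∧ P'.map (fun φ x => φ (rot x)) = P' ∧
  P'.map (fun φ x => φ (x.2, x.1)) = P' ∧
  (∀ (B : Finset (ℤ × ℤ)) (W W' : (ℤ × ℤ → ℤ) → ℝ), Measurable W → Measurable W' →
    (∃ M, ∀ φ, |W φ| ≤ M) → (∃ M, ∀ φ, |W' φ| ≤ M) →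
    (∀ φ, W (-φ) = W φ) → (∀ φ, W' (-φ) = W' φ) →
    (∀ φ ψ, (∀ x ∈ B, φ x = ψ x) → W φ = W ψ) → (∀ φ ψ, (∀ x ∈ B, φ x = ψ x) → W' φ = W' ψ) →
    Tendsto (fun t => ∫ φ, W φ * W' (shift t φ) ∂P') cofinite
      (𝓝 ((∫ φ, W φ ∂P') * ∫ φ, W' φ ∂P'))) ∧
  0 ≤ κ ∧
  Tendsto (fun x : ℤ × ℤ => (∫ φ, ((φ x : ℤ) : ℝ) ^ 2 ∂P') / Real.log (len x)) cofinite
    (𝓝 (κ / Real.pi))

/-- The parameters of the final theorem: everything for one measure and one constant. -/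
theorem exists_all : ∃ (Q : Measure A.Om) (κ' : ℝ) (_ : A.IsQ Q) (_ : Plane (Q.map A.rc))
    (_ : SpecOut (Q.map A.rc) κ') (_ : RowCLT (Q.map A.rc) κ') (_ : 0 ≤ κ')
    (_ : IsProbabilityMeasure ((Q.map A.rc).map dbl)),
    PlanePart ((Q.map A.rc).map dbl) (4 * κ' / √3) ∧
    (∀ (m : ℕ) (f : Fin m → ℝ × ℝ → ℝ), (∀ j, Test (f j)) →
      (Matrix.of (fun i j => (4 * κ' / √3) * gffCov (f i) (f j))).PosSemidef ∧
      MeasureTheory.TendstoInDistribution (fun (δ : ℝ) (φ : ℤ × ℤ → ℤ) =>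
        (WithLp.toLp 2 (fun j => smear φ δ (f j)) : EuclideanSpace ℝ (Fin m))) (𝓝[>] 0)
        (id : EuclideanSpace ℝ (Fin m) → EuclideanSpace ℝ (Fin m))
        (fun _ => (Q.map A.rc).map dbl)
        (ProbabilityTheory.multivariateGaussian 0
          (Matrix.of (fun i j => (4 * κ' / √3) * gffCov (f i) (f j))))) ∧
    ∃ _ : ∀ D : Finset (ℤ × ℤ), IsProbabilityMeasure (ProbabilityTheory.uniformOn (Odd2 D)),
    ∃ R : ℝ → Finset (ℤ × ℤ), ∀ D : ℝ → Finset (ℤ × ℤ), (∀ δ, R δ ⊆ D δ) → (∀ δ, CoConn (D δ)) →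
      ∀ (m : ℕ) (f : Fin m → ℝ × ℝ → ℝ), (∀ j, Test (f j)) →
        MeasureTheory.TendstoInDistribution (fun (δ : ℝ) (h : ℤ × ℤ → ℤ) =>
          (WithLp.toLp 2 (fun j => smear h δ (f j)) : EuclideanSpace ℝ (Fin m))) (𝓝[>] 0)
          (id : EuclideanSpace ℝ (Fin m) → EuclideanSpace ℝ (Fin m))
          (fun δ => ProbabilityTheory.uniformOn (Odd2 (D δ)))
          (ProbabilityTheory.multivariateGaussian 0
            (Matrix.of (fun i j => (4 * κ' / √3) * gffCov (f i) (f j)))) := by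
  obtain ⟨Q, hQ, hP, hE, hloc⟩ := exists_q
  obtain ⟨κ, hκ, hS⟩ := RP.specOut hP
  have hS' := hS
  obtain ⟨m, C, k0, hSp⟩ := hS'
  have hC := Asm.rowCLT hP (Strip.rowLim hE) hSp
  obtain ⟨o1, o2, o3, o4, o5, o6, o7⟩ := odd_out hP
  have h3 : (0 : ℝ) < √3 := by positivity
  obtain ⟨s1, s2⟩ := scal_lim hP hS hC hκ
  exact ⟨Q, κ, hQ, hP, hS, hC, hκ, o1,
    ⟨o2, fun D hD hx => oddLim_all hloc hD hx, o4, o5, o6, o7,
      fun B W W' a1 a2 a3 a4 a5 a6 a7 a8 => mix_map hP B W W' a1 a2 a3 a4 a5 a6 a7 a8,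
      by positivity, s1⟩, s2, fin_lim hP hS hC hloc fun D => cc_of_coConn⟩

end Vale.Agent.P153.F
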