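import Vale.Agent.P153.FkgMain

/-!
# P153, block F: exploration and the domain Markov property

Odd heights on the triangular lattice, steps at most two (`Lip`). An edge is closed if the height
is `± 1` at both ends. If the union of the clusters of `A` (for the other edges) is `κ`, the
heights off `κ` are distributed according to the free `± 1` boundary law of the complement.
-/

namespace Vale.Agent.P153.F

open Finset Relation Vale.Agent.P153

/-- A vertex. -/
abbrev Pt : Type := ℤ × ℤ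

/-- A configuration. -/
abbrev Hg : Type := Pt → ℤ

/-- Step along an open edge. -/
def Op (h : Hg) (x y : Pt) : Prop := Adj x y ∧ ¬ (|h x| = 1 ∧ |h y| = 1)

/-- The union of the clusters which meet `A`. -/
def Clu (A : Set Pt) (h : Hg) : Set Pt := {y | ∃ x ∈ A, ReflTransGen (Op h) x y}

/-- Heights on `T` with free boundary values `± 1`; the dummy value `1` off `T`. -/
def Fre (T : Set Pt) : Set Hg :=
  {h | Lip h ∧ (∀ x, x ∉ T → h x = 1) ∧ ∀ x ∈ T, (∃ y, Adj x y ∧ y ∉ T) → |h x| = 1}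

open Classical in
/-- `y` on `T` and `z` off `T`. -/
noncomputable def comb (T : Set Pt) (y z : Hg) : Hg := fun x => if x ∈ T then y x else z x

variable {A T κ : Set Pt} {h y z : Hg}

theorem comb_in {x : Pt} (hx : x ∈ T) : comb T y z x = y x := if_pos hx

theorem comb_out {x : Pt} (hx : x ∉ T) : comb T y z x = z x := if_neg hx

theorem subset_clu : A ⊆ Clu A h := fun x hx => ⟨x, hx, ReflTransGen.refl⟩

theorem clu_step {x y : Pt} (hx : x ∈ Clu A h) (hxy : Op h x y) : y ∈ Clu A h := by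
  obtain ⟨a, ha, h1⟩ := hx
  exact ⟨a, ha, h1.tail hxy⟩

theorem closed_of_cross {x y : Pt} (hx : x ∈ Clu A h) (hy : y ∉ Clu A h) (hxy : Adj x y) :
    |h x| = 1 ∧ |h y| = 1 := by
  by_contra hcon
  exact hy (clu_step hx ⟨hxy, hcon⟩)

/-- Off a union of clusters there are free boundary values. -/
theorem comb_mem_left (hh : Lip h) (hT : ∀ x y, x ∈ T → y ∉ T → Adj x y → |h x| = 1 ∧ |h y| = 1) :
    comb T h (fun _ => 1) ∈ Fre T := by
  refine ⟨⟨fun x => ?_, fun x y hxy => ?_⟩, fun x hx => comb_out hx, fun x hx h1 => ?_⟩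
  · by_cases hx : x ∈ T
    · rw [comb_in hx]; exact hh.1 x
    · rw [comb_out hx]; exact odd_one
  · by_cases hx : x ∈ T <;> by_cases hy : y ∈ T
    · rw [comb_in hx, comb_in hy]; exact hh.2 x y hxy
    · rw [comb_in hx, comb_out hy]
      rcases abs_eq (zero_le_one' ℤ) |>.1 (hT x y hx hy hxy).1 with h1 | h1 <;> simp [h1]
    · rw [comb_out hx, comb_in hy]
      rcases abs_eq (zero_le_one' ℤ) |>.1 (hT y x hy hx hxy.symm).1 with h1 | h1 <;> simp [h1]
    · rw [comb_out hx, comb_out hy]; simp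
  · obtain ⟨y, hxy, hy⟩ := h1
    rw [comb_in hx]
    exact (hT x y hx hy hxy).1

theorem comb_compl (T : Set Pt) (y z : Hg) : comb Tᶜ y z = comb T z y := by
  funext x
  by_cases hx : x ∈ T
  · have hx' : x ∉ Tᶜ := fun h => h hx
    rw [comb_in hx, comb_out hx']
  · rw [comb_out hx, comb_in (show x ∈ Tᶜ from hx)]

theorem comb_mem_right (hh : Lip h)
    (hT : ∀ x y, x ∈ T → y ∉ T → Adj x y → |h x| = 1 ∧ |h y| = 1) :
    comb T (fun _ => 1) h ∈ Fre Tᶜ := by
  rw [← comb_compl]
  refine comb_mem_left hh fun x y hx hy hxy => ?_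
  have hy' : y ∈ T := by simpa using hy
  exact (hT y x hy' hx hxy.symm).symm

/-- Superposition. -/
theorem lip_comb (hy : y ∈ Fre T) (hz : z ∈ Fre Tᶜ) : Lip (comb T y z) := by
  refine ⟨fun x => ?_, fun x x' hxx => ?_⟩
  · by_cases hx : x ∈ T
    · rw [comb_in hx]; exact hy.1.1 x
    · rw [comb_out hx]; exact hz.1.1 x
  · have key : ∀ x x', Adj x x' → x ∈ T → x' ∉ T → |y x - z x'| ≤ 2 := by
      intro x x' hxx hx hx'
      have h1 := hy.2.2 x hx ⟨x', hxx, hx'⟩
      have h2 := hz.2.2 x' hx' ⟨x, hxx.symm, fun h => h hx⟩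
      rcases abs_eq (zero_le_one' ℤ) |>.1 h1 with h1 | h1 <;>
        rcases abs_eq (zero_le_one' ℤ) |>.1 h2 with h2 | h2 <;> simp [h1, h2]
    by_cases hx : x ∈ T <;> by_cases hx' : x' ∈ T
    · rw [comb_in hx, comb_in hx']; exact hy.1.2 x x' hxx
    · rw [comb_in hx, comb_out hx']; exact key x x' hxx hx hx'
    · rw [comb_out hx, comb_in hx', abs_sub_comm]; exact key x' x hxx.symm hx' hx
    · rw [comb_out hx, comb_out hx']; exact hz.1.2 x x' hxx

theorem closed_comb (hy : y ∈ Fre T) (hz : z ∈ Fre Tᶜ) {x x' : Pt} (hx : x ∈ T) (hx' : x' ∉ T)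
    (hxx : Adj x x') : |comb T y z x| = 1 ∧ |comb T y z x'| = 1 := by
  rw [comb_in hx, comb_out hx']
  exact ⟨hy.2.2 x hx ⟨x', hxx, hx'⟩, hz.2.2 x' hx' ⟨x, hxx.symm, fun h => h hx⟩⟩

theorem comb_self_left (hy : y ∈ Fre T) : comb T (comb T y z) (fun _ => 1) = y := by
  funext x
  by_cases hx : x ∈ T
  · rw [comb_in hx, comb_in hx]
  · rw [comb_out hx, hy.2.1 x hx]

theorem comb_self_right (hz : z ∈ Fre Tᶜ) : comb T (fun _ => 1) (comb T y z) = z := by
  funext x
  by_cases hx : x ∈ T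
  · rw [comb_in hx, hz.2.1 x fun h => h hx]
  · rw [comb_out hx, comb_out hx]

theorem comb_comb : comb T (comb T h (fun _ => 1)) (comb T (fun _ => 1) h) = h := by
  funext x
  by_cases hx : x ∈ T
  · rw [comb_in hx, comb_in hx]
  · rw [comb_out hx, comb_out hx]

/-- The clusters are a function of the heights on the explored set. -/
theorem clu_comb_left (hκ : Clu A h = κ) : Clu A (comb κ h (fun _ => 1)) = κ := by
  apply subset_antisymm
  · rintro y ⟨x, hx, hxy⟩
    have hxκ : x ∈ κ := by rw [← hκ]; exact subset_clu hx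
    clear hx
    induction hxy with
    | refl => exact hxκ
    | @tail b c _ h3 ih =>
      obtain ⟨h4, h5⟩ := h3
      rw [comb_in ih] at h5
      by_cases hc : c ∈ κ
      · exact hc
      · exfalso
        rw [comb_out hc] at h5
        have h6 := closed_of_cross (A := A) (h := h) (x := b) (y := c) (by rw [hκ]; exact ih)
          (by rw [hκ]; exact hc) h4
        exact h5 ⟨h6.1, abs_one⟩
  · intro y hy
    rw [← hκ] at hy
    obtain ⟨x, hx, hxy⟩ := hy
    refine ⟨x, hx, ?_⟩
    have key : ∀ y, ReflTransGen (Op h) x y →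
        ReflTransGen (Op (comb κ h (fun _ => 1))) x y ∧ y ∈ κ := by
      intro y hy
      induction hy with
      | refl => exact ⟨ReflTransGen.refl, by rw [← hκ]; exact subset_clu hx⟩
      | @tail b c _ h3 ih =>
        obtain ⟨i1, i2⟩ := ih
        have hc : c ∈ κ := by
          rw [← hκ] at i2 ⊢
          exact clu_step i2 h3
        refine ⟨i1.tail ⟨h3.1, ?_⟩, hc⟩
        rw [comb_in i2, comb_in hc]
        exact h3.2
    exact (key y hxy).1

theorem clu_comb (hy : y ∈ Fre κ) (hyκ : Clu A y = κ) (hz : z ∈ Fre κᶜ) :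
    Clu A (comb κ y z) = κ := by
  apply subset_antisymm
  · rintro w ⟨x, hx, hxw⟩
    have hxκ : x ∈ κ := by rw [← hyκ]; exact subset_clu hx
    clear hx
    induction hxw with
    | refl => exact hxκ
    | @tail b c _ h3 ih =>
      by_contra hc
      exact h3.2 (closed_comb hy hz ih hc h3.1)
  · intro w hw
    rw [← hyκ] at hw
    obtain ⟨x, hx, hxw⟩ := hw
    refine ⟨x, hx, ?_⟩
    have key : ∀ w, ReflTransGen (Op y) x w →
        ReflTransGen (Op (comb κ y z)) x w ∧ w ∈ κ := by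
      intro w hw
      induction hw with
      | refl => exact ⟨ReflTransGen.refl, by rw [← hyκ]; exact subset_clu hx⟩
      | @tail b c _ h3 ih =>
        obtain ⟨i1, i2⟩ := ih
        have hc : c ∈ κ := by
          rw [← hyκ] at i2 ⊢
          exact clu_step i2 h3
        refine ⟨i1.tail ⟨h3.1, ?_⟩, hc⟩
        rw [comb_in i2, comb_in hc]
        exact h3.2
    exact (key w hxw).1

/-- The explored part. -/
def Exp (A κ : Set Pt) : Set Hg := {y | y ∈ Fre κ ∧ Clu A y = κ}

/-- Domain Markov property: the configurations with explored set `κ`. -/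
theorem bijOn_comb (A κ : Set Pt) :
    Set.BijOn (fun p : Hg × Hg => comb κ p.1 p.2) (Exp A κ ×ˢ Fre κᶜ)
      {h | Lip h ∧ Clu A h = κ} := by
  refine ⟨?_, ?_, ?_⟩
  · rintro ⟨y, z⟩ ⟨hy, hz⟩
    exact ⟨lip_comb hy.1 hz, clu_comb hy.1 hy.2 hz⟩
  · rintro ⟨y, z⟩ ⟨hy, hz⟩ ⟨y', z'⟩ ⟨hy', hz'⟩ h
    have h1 : comb κ y z = comb κ y' z' := h
    change y ∈ Exp A κ at hy
    change y' ∈ Exp A κ at hy'
    change z ∈ Fre κᶜ at hz
    change z' ∈ Fre κᶜ at hz'
    apply Prod.ext
    · show y = y'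
      rw [← comb_self_left (z := z) hy.1, h1, comb_self_left hy'.1]
    · show z = z'
      rw [← comb_self_right (y := y) hz, h1, comb_self_right hz']
  · rintro h ⟨hh, hκ⟩
    have hT : ∀ x y, x ∈ κ → y ∉ κ → Adj x y → |h x| = 1 ∧ |h y| = 1 := by
      intro x y hx hy hxy
      rw [← hκ] at hx hy
      exact closed_of_cross hx hy hxy
    exact ⟨(comb κ h (fun _ => 1), comb κ (fun _ => 1) h),
      ⟨⟨comb_mem_left hh hT, clu_comb_left hκ⟩, comb_mem_right hh hT⟩, comb_comb⟩

/-- The explored set increases with the absolute value. -/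
theorem clu_mono {h h' : Hg} (hA : ∀ x, |h x| = 1 → |h' x| = 1) : Clu A h' ⊆ Clu A h := by
  rintro y ⟨x, hx, hxy⟩
  exact ⟨x, hx, hxy.lift id fun a b hab => ⟨hab.1, fun h => hab.2 ⟨hA a h.1, hA b h.2⟩⟩⟩

end Vale.Agent.P153.F
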