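import Vale.Agent.P153.F.X.LowExt
import Vale.Agent.P153.F.X.Int
import Vale.Agent.P153.FkgVar
import Vale.Agent.P153.GFF.Odd
import Vale.Agent.P153.CLT.PlaneVar
import Vale.Agent.P153.A.Cc

/-!
P153-F: the logarithmic lower bound for the variances in finite domains with boundary values `0`
(Glazman and Manolescu) implies `0 < κ`.
-/

namespace Vale.Agent.P153.F.GM

open Finset Filter Topology MeasureTheory ProbabilityTheory
open Vale.Agent.P153
open Vale.Agent.P153.F.X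
open Vale.Agent.P153.F.Top (Om Cone ze vh)
open scoped ENNReal

/-- The indicator of the edge `w`. -/
noncomputable def iw (w : Pt) : Set Pt → ℝ := ind fun B => w ∈ B

theorem mem_bl {h : Hg} {x y : Pt} (hxy : Adj x y) :
    x + y ∈ bl h ↔ |h x| = 1 ∧ |h y| = 1 := by
  constructor
  · rintro ⟨x', y', h1, h2, h3, h4⟩
    rcases LE.edge_eq hxy h1 h2 with ⟨rfl, rfl⟩ | ⟨rfl, rfl⟩
    · exact ⟨h3, h4⟩
    · exact ⟨h4, h3⟩
  · rintro ⟨h1, h2⟩
    exact ⟨x, y, hxy, rfl, h1, h2⟩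

theorem fn_iw {w : Pt} {A : Set Pt} (hw : w ∈ A) : Fn A (iw w) := by
  classical
  refine ⟨fun B => ?_, ⟨{w}, fun v hv => ?_, fun B B' h => ?_⟩, ?_⟩
  · unfold iw ind; split_ifs <;> norm_num
  · rw [Finset.mem_singleton] at hv; rw [hv]; exact hw
  · unfold iw ind
    have := h w (Finset.mem_singleton_self w)
    by_cases h1 : w ∈ B
    · rw [if_pos h1, if_pos (this.1 h1)]
    · rw [if_neg h1, if_neg fun h2 => h1 (this.2 h2)]
  · unfold iw ind
    rw [if_neg (Set.notMem_empty w)]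

theorem meas_blk (x y : Pt) : MeasurableSet {h : Hg | |h x| = 1 ∧ |h y| = 1} := by
  have h1 : ∀ z : Pt, MeasurableSet {h : Hg | |h z| = 1} := fun z =>
    (measurable_pi_apply (X := fun _ : Pt => ℤ) z) (t := {n : ℤ | |n| = 1})
      (MeasurableSet.of_discrete)
  exact (h1 x).inter (h1 y)

/-- Integral against the law of the absolute heights. -/
theorem lint {P : Measure (Pt → ℤ)} {f : Hg → ℝ≥0∞} (hf : Measurable f) :
    ∫⁻ h, f h ∂(muT P) = ∫⁻ φ, ∑' k : ℤ, f (odd k φ) ∂P := by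
  rw [muT, lintegral_sum_measure]
  refine Eq.trans ?_
    (lintegral_tsum fun k => (hf.comp (measurable_odd k)).aemeasurable).symm
  exact tsum_congr fun k => lintegral_map hf (measurable_odd k)

theorem blk_iff {φ : Pt → ℤ} {x y : Pt} {k : ℤ} (h : |odd k φ x| = 1 ∧ |odd k φ y| = 1) :
    k = 1 - φ x ∨ k = -φ x := by
  have h1 := h.1
  unfold odd at h1
  rcases abs_eq (by norm_num : (0 : ℤ) ≤ 1) |>.1 h1 with h2 | h2
  · left; omega
  · right; omega

/-- The number of levels at which an edge is blocked is at least one. -/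
theorem one_le {φ : Pt → ℤ} {x y : Pt} (hφ : |φ x - φ y| ≤ 1) :
    (1 : ℝ≥0∞) ≤ ∑' k : ℤ, {h : Hg | |h x| = 1 ∧ |h y| = 1}.indicator 1 (odd k φ) := by
  rw [abs_le] at hφ
  by_cases h1 : φ y = φ x + 1
  · refine le_trans ?_ (ENNReal.le_tsum (-φ x))
    rw [Set.indicator_of_mem]
    · rfl
    · show |odd _ φ x| = 1 ∧ |odd _ φ y| = 1
      unfold odd
      constructor
      · rw [show 2 * φ x + 2 * -φ x - 1 = -1 by ring]; rfl
      · rw [h1, show 2 * (φ x + 1) + 2 * -φ x - 1 = 1 by ring]; rfl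
  · refine le_trans ?_ (ENNReal.le_tsum (1 - φ x))
    rw [Set.indicator_of_mem]
    · rfl
    · show |odd _ φ x| = 1 ∧ |odd _ φ y| = 1
      unfold odd
      have h2 : φ y = φ x ∨ φ y = φ x - 1 := by omega
      constructor
      · rw [show 2 * φ x + 2 * (1 - φ x) - 1 = 1 by ring]; rfl
      · rcases h2 with h2 | h2
        · rw [h2, show 2 * φ x + 2 * (1 - φ x) - 1 = 1 by ring]; rfl
        · rw [h2, show 2 * (φ x - 1) + 2 * (1 - φ x) - 1 = -1 by ring]; rfl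

/-- The number of levels at which an edge is blocked is at most two, with a weight which does not
depend on the level. -/
theorem le_two {φ : Pt → ℤ} {x y : Pt} {f : Hg → ℝ≥0∞} {b : ℝ≥0∞}
    (hf : ∀ k, |odd k φ x| = 1 ∧ |odd k φ y| = 1 → f (odd k φ) ≤ b)
    (h0 : ∀ k, ¬ (|odd k φ x| = 1 ∧ |odd k φ y| = 1) → f (odd k φ) = 0) :
    ∑' k : ℤ, f (odd k φ) ≤ 2 * b := by
  classical
  have h1 : ∀ k : ℤ, k ∉ ({1 - φ x, -φ x} : Finset ℤ) → f (odd k φ) = 0 := by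
    intro k hk
    refine h0 k fun h => hk ?_
    rw [Finset.mem_insert, Finset.mem_singleton]
    exact blk_iff h
  rw [tsum_eq_sum h1]
  have h2 : (1 - φ x) ≠ -φ x := by omega
  rw [Finset.sum_pair h2, two_mul]
  have h3 : ∀ k, f (odd k φ) ≤ b := fun k => by
    by_cases h : |odd k φ x| = 1 ∧ |odd k φ y| = 1
    · exact hf k h
    · rw [h0 k h]; exact bot_le
  exact add_le_add (h3 _) (h3 _)

/-- The square of the height at `0`. -/
noncomputable def sq0 : Om → ℝ := fun ω => (([0, 0] : List Pt).map ω).prod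

theorem sq0_eq (ω : Om) : sq0 ω = ω 0 ^ 2 := by
  unfold sq0; simp; ring

theorem cone_sq0 : Cone sq0 := Top.Pol.mon _

/-- The upper bound for the second moment in a finite domain. -/
theorem ze_le {P : Measure (Pt → ℤ)} (hP : GFF.Plane P) {F : Finset Pt} {x y : Pt}
    (hx : x ∉ F) (hy : y ∉ F) (hxy : Adj x y)
    (hint : Integrable (fun φ : Pt → ℤ => (φ x : ℝ) ^ 2) P) :
    ze F sq0 ≤ 16 * (∫ φ, (φ x : ℝ) ^ 2 ∂P) + 4 := by
  have hpr := hP.prob
  have hI := s_int hP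
  set w : Pt := x + y with hw
  have hwF : w ∈ (tE (F : Set Pt))ᶜ := by
    rintro ⟨a, ha, b, hab, h1⟩
    rcases LE.edge_eq hxy hab h1 with ⟨rfl, rfl⟩ | ⟨rfl, rfl⟩
    · exact hx ha
    · exact hy ha
  have hlow := s_low hP hI F (iw w) sq0 (fn_iw hwF) cone_sq0
  have hiw : ∀ h : Hg, iw w (bl h) = {h : Hg | |h x| = 1 ∧ |h y| = 1}.indicator 1 h := by
    intro h
    unfold iw ind
    by_cases h1 : w ∈ bl h
    · rw [if_pos h1, Set.indicator_of_mem (show h ∈ {h : Hg | |h x| = 1 ∧ |h y| = 1} from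
        (mem_bl hxy).1 h1)]
      rfl
    · rw [if_neg h1, Set.indicator_of_notMem (show h ∉ {h : Hg | |h x| = 1 ∧ |h y| = 1} from
        fun h2 => h1 ((mem_bl hxy).2 h2))]
  have hms : Measurable fun h : Hg => ({h : Hg | |h x| = 1 ∧ |h y| = 1}.indicator 1 h : ℝ) :=
    measurable_one.indicator (meas_blk x y)
  have hm0 : Measurable fun h : Hg => ((h 0 : ℤ) : ℝ) :=
    (measurable_from_top (f := fun z : ℤ => (z : ℝ))).comp (measurable_pi_apply 0)
  -- the mass is at least one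
  have hone : 1 ≤ II P (iw w) (fun _ => 1) := by
    have hi := hI (iw w) (fun _ => 1) (fn_iw (Set.mem_univ w)).loc (fn_iw (Set.mem_univ w)).pin
      (Top.Pol.mon (P := fun _ => True) [])
    unfold II
    have h1 : ENNReal.ofReal (∫ h, iw w (bl h) * 1 ∂(muT P)) =
        ∫⁻ h, ENNReal.ofReal (iw w (bl h) * 1) ∂(muT P) :=
      ofReal_integral_eq_lintegral_ofReal hi (ae_of_all _ fun h => by
        simp only [mul_one]; exact (fn_iw (Set.mem_univ w)).nonneg _)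
    have h2 : ∫⁻ h, ENNReal.ofReal (iw w (bl h) * 1) ∂(muT P) =
        ∫⁻ h, {h : Hg | |h x| = 1 ∧ |h y| = 1}.indicator 1 h ∂(muT P) := by
      refine lintegral_congr fun h => ?_
      rw [mul_one, hiw]
      by_cases h3 : h ∈ {h : Hg | |h x| = 1 ∧ |h y| = 1}
      · rw [Set.indicator_of_mem h3, Set.indicator_of_mem h3]; simp
      · rw [Set.indicator_of_notMem h3, Set.indicator_of_notMem h3]; simp
    have h3 : (1 : ℝ≥0∞) ≤ ∫⁻ h, {h : Hg | |h x| = 1 ∧ |h y| = 1}.indicator 1 h ∂(muT P) := by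
      rw [lint (measurable_one.indicator (meas_blk x y))]
      calc (1 : ℝ≥0∞) = ∫⁻ _φ, 1 ∂P := by rw [lintegral_const, measure_univ, mul_one]
        _ ≤ _ := by
          refine lintegral_mono_ae ?_
          filter_upwards [hP.lip] with φ hφ
          exact one_le (hφ x y hxy)
    rw [← h2, ← h1, ENNReal.one_le_ofReal] at h3
    exact h3
  -- the weighted second moment
  have hup : II P (iw w) sq0 ≤ 16 * (∫ φ, (φ x : ℝ) ^ 2 ∂P) + 4 := by
    have hi := hI (iw w) sq0 (fn_iw (Set.mem_univ w)).loc (fn_iw (Set.mem_univ w)).pin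
      (Top.Pol.mon (P := fun _ => True) [0, 0])
    have e0 : ∀ h : Hg, iw w (bl h) * sq0 (vm h) =
        {h : Hg | |h x| = 1 ∧ |h y| = 1}.indicator 1 h * ((h 0 : ℤ) : ℝ) ^ 2 := fun h => by
      rw [hiw, sq0_eq]; rfl
    have hnn : ∀ h : Hg, 0 ≤ iw w (bl h) * sq0 (vm h) := fun h => by
      rw [sq0_eq]
      exact mul_nonneg ((fn_iw (Set.mem_univ w)).nonneg _) (sq_nonneg _)
    have h1 : ENNReal.ofReal (∫ h, iw w (bl h) * sq0 (vm h) ∂(muT P)) =
        ∫⁻ h, ENNReal.ofReal (iw w (bl h) * sq0 (vm h)) ∂(muT P) :=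
      ofReal_integral_eq_lintegral_ofReal hi (ae_of_all _ hnn)
    have h2 : ∫⁻ h, ENNReal.ofReal (iw w (bl h) * sq0 (vm h)) ∂(muT P) =
        ∫⁻ φ, ∑' k : ℤ, ENNReal.ofReal
          ({h : Hg | |h x| = 1 ∧ |h y| = 1}.indicator 1 (odd k φ) *
            ((odd k φ 0 : ℤ) : ℝ) ^ 2) ∂P := by
      rw [← lint (f := fun h => ENNReal.ofReal
        ({h : Hg | |h x| = 1 ∧ |h y| = 1}.indicator 1 h * ((h 0 : ℤ) : ℝ) ^ 2))
        (ENNReal.measurable_ofReal.comp (hms.mul (hm0.pow_const 2)))]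
      exact lintegral_congr fun h => by rw [e0]
    have h3 : ∫⁻ φ, ∑' k : ℤ, ENNReal.ofReal
          ({h : Hg | |h x| = 1 ∧ |h y| = 1}.indicator 1 (odd k φ) *
            ((odd k φ 0 : ℤ) : ℝ) ^ 2) ∂P ≤
        ∫⁻ φ, 2 * ENNReal.ofReal (8 * (φ x : ℝ) ^ 2 + 2) ∂P := by
      refine lintegral_mono_ae ?_
      filter_upwards [hP.zero] with φ h0
      refine le_two (x := x) (y := y) (f := fun h => ENNReal.ofReal
        ({h : Hg | |h x| = 1 ∧ |h y| = 1}.indicator 1 h * ((h 0 : ℤ) : ℝ) ^ 2)) ?_ ?_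
      · intro k hk
        refine ENNReal.ofReal_le_ofReal ?_
        rw [Set.indicator_of_mem (show odd k φ ∈ {h : Hg | |h x| = 1 ∧ |h y| = 1} from hk)]
        have h4 : odd k φ 0 = 2 * k - 1 := by unfold odd; rw [h0]; ring
        have h5 : ((odd k φ 0 : ℤ) : ℝ) = 2 * (k : ℝ) - 1 := by rw [h4]; push_cast; ring
        rw [Pi.one_apply, one_mul, h5]
        rcases blk_iff hk with h6 | h6
        · rw [h6]; push_cast; nlinarith [sq_nonneg ((φ x : ℝ) + 1 / 2), sq_nonneg ((φ x : ℝ) + 1)]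
        · rw [h6]; push_cast; nlinarith [sq_nonneg ((φ x : ℝ) - 1 / 2), sq_nonneg ((φ x : ℝ) - 1)]
      · intro k hk
        show ENNReal.ofReal _ = 0
        rw [Set.indicator_of_notMem (show odd k φ ∉ {h : Hg | |h x| = 1 ∧ |h y| = 1} from hk),
          zero_mul, ENNReal.ofReal_zero]
    have hi2 : Integrable (fun φ : Pt → ℤ => 8 * (φ x : ℝ) ^ 2 + 2) P :=
      (hint.const_mul 8).add (integrable_const 2)
    have h7 : ∫⁻ φ, 2 * ENNReal.ofReal (8 * (φ x : ℝ) ^ 2 + 2) ∂P =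
        ENNReal.ofReal (16 * (∫ φ, (φ x : ℝ) ^ 2 ∂P) + 4) := by
      rw [lintegral_const_mul' 2 _ (by norm_num), ← ofReal_integral_eq_lintegral_ofReal hi2
        (ae_of_all _ fun φ => by positivity), integral_add (hint.const_mul 8) (integrable_const 2),
        integral_const_mul, integral_const, probReal_univ, smul_eq_mul, one_mul]
      rw [show (2 : ℝ≥0∞) = ENNReal.ofReal 2 by norm_num, ← ENNReal.ofReal_mul (by norm_num)]
      congr 1; ring
    have h8 := h1.le.trans (h2.le.trans (h3.trans h7.le))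
    have h9 : (0 : ℝ) ≤ 16 * (∫ φ, (φ x : ℝ) ^ 2 ∂P) + 4 := by
      have : 0 ≤ ∫ φ, (φ x : ℝ) ^ 2 ∂P := integral_nonneg fun φ => sq_nonneg _
      linarith
    exact (ENNReal.ofReal_le_ofReal_iff h9).1 h8
  have hz : 0 ≤ ze F sq0 := by
    unfold ze ev
    refine div_nonneg (Finset.sum_nonneg fun h _ => ?_) (Nat.cast_nonneg _)
    rw [sq0_eq]; positivity
  nlinarith

/-- Integer Lipschitz functions with the value `0` off `D`. -/
def Lip0 (D : Finset (ℤ × ℤ)) : Set (ℤ × ℤ → ℤ) :=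
  {φ | (∀ x, x ∉ D → φ x = 0) ∧ ∀ x y, Adj x y → |φ x - φ y| ≤ 1}

theorem lip0_eq (D : Finset Pt) :
    Lip0 D = (fun (h : Pt → ℤ) x => (h x - 1) / 2) '' (Cplus D : Set (Pt → ℤ)) := by
  ext φ
  constructor
  · rintro ⟨h1, h2⟩
    refine ⟨fun x => 2 * φ x + 1, ?_, ?_⟩
    · rw [Finset.mem_coe, Cplus, mem_ConfF]
      refine ⟨⟨fun x => ⟨φ x, rfl⟩, fun x y hxy => ?_⟩, fun x hx => ?_⟩
      · show |(2 * φ x + 1) - (2 * φ y + 1)| ≤ 2
        have := h2 x y hxy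
        rw [abs_le] at this ⊢; omega
      · show 2 * φ x + 1 = 1
        rw [h1 x hx]; norm_num
    · funext x
      show (2 * φ x + 1 - 1) / 2 = φ x
      omega
  · rintro ⟨h, hh, rfl⟩
    rw [Finset.mem_coe, Cplus, mem_ConfF] at hh
    obtain ⟨⟨h1, h2⟩, h3⟩ := hh
    refine ⟨fun x hx => ?_, fun x y hxy => ?_⟩
    · show (h x - 1) / 2 = 0
      rw [h3 x hx]; norm_num
    · show |(h x - 1) / 2 - (h y - 1) / 2| ≤ 1
      obtain ⟨a, ha⟩ := h1 x
      obtain ⟨b, hb⟩ := h1 y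
      have := h2 x y hxy
      rw [ha, hb] at this ⊢
      rw [abs_le] at this ⊢; omega

/-- The second moment at `0` with the boundary values `0` is bounded by the second moments in the
plane. -/
theorem mom_le {P : Measure (Pt → ℤ)} (hP : GFF.Plane P) {D : Finset Pt} {x y : Pt}
    (h0 : (0 : Pt) ∈ D) (hx : x ∉ D) (hy : y ∉ D) (hxy : Adj x y) :
    ∫ h, ((h 0 : ℤ) : ℝ) ^ 2 ∂(uniformOn (Lip0 D)) ≤
      16 * (∫ φ, (φ x : ℝ) ^ 2 ∂P) + 9 := by
  classical
  have hint : Integrable (fun φ : Pt → ℤ => (φ x : ℝ) ^ 2) P := by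
    simpa only [sq] using CLT.integrable_mul_coord hP x x
  have hz := ze_le hP hx hy hxy hint
  have hz1 : ze D sq0 = ev (FreeF D (clo D)) (fun h => ((h 0 : ℤ) : ℝ) ^ 2) := by
    unfold ze
    congr 1
    funext h
    rw [sq0_eq]
    unfold vh
    rw [if_pos h0]
  rw [hz1] at hz
  have hlin : ∀ h : Pt → ℤ, lin {0} (fun _ => (1 : ℝ)) h = ((h 0 : ℤ) : ℝ) := fun h => by
    unfold lin; simp
  have hpn : (Cplus D).Nonempty := nonempty_ConfF _ _ _
  have hr := rms_between D {0} (Cplus D) (FreeF D (clo D)) hpn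
    (nonempty_free _ _) (between_conf _ _ _) (between_free D _ (sub_clo D)) (fun _ => 1)
    (fun _ _ => zero_le_one) 0
  simp only [hlin, sub_zero, Finset.sum_singleton, mul_one] at hr
  set A := ev (Cplus D) (fun h : Pt → ℤ => ((h 0 : ℤ) : ℝ) ^ 2) with hA
  set B := ev (FreeF D (clo D)) (fun h : Pt → ℤ => ((h 0 : ℤ) : ℝ) ^ 2) with hB
  have hA0 : 0 ≤ A := ev_nonneg _ _ fun _ _ => sq_nonneg _
  have hB0 : 0 ≤ B := ev_nonneg _ _ fun _ _ => sq_nonneg _
  have hAB : A ≤ 2 * B + 8 := by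
    have h1 := Real.sq_sqrt hA0
    have h2 := Real.sq_sqrt hB0
    have h3 := Real.sqrt_nonneg A
    have h4 := Real.sqrt_nonneg B
    nlinarith [sq_nonneg (√B - 2), mul_self_le_mul_self h3 hr]
  set L : Finset (Pt → ℤ) := (Cplus D).image fun (h : Pt → ℤ) x => (h x - 1) / 2 with hL
  have hLc : (L : Set (Pt → ℤ)) = Lip0 D := by
    rw [hL, Finset.coe_image, lip0_eq]
  have hinj : Set.InjOn (fun (h : Pt → ℤ) (x : Pt) => (h x - 1) / 2)
      (Cplus D : Set (Pt → ℤ)) := by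
    intro h hh g hg hhg
    rw [Finset.mem_coe, Cplus, mem_ConfF] at hh hg
    funext z
    have h1 := congrFun hhg z
    simp only at h1
    obtain ⟨a, ha⟩ := hh.1.1 z
    obtain ⟨b, hb⟩ := hg.1.1 z
    omega
  rw [← hLc]
  have e1 : ∫ h, ((h 0 : ℤ) : ℝ) ^ 2 ∂(uniformOn (L : Set (Pt → ℤ))) =
      ev (Cplus D) (fun h : Pt → ℤ => ((((h 0 - 1) / 2 : ℤ)) : ℝ) ^ 2) := by
    rw [integral_uniformOn]
    unfold ev
    rw [hL, Finset.sum_image hinj, Finset.card_image_of_injOn hinj]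
  rw [e1]
  have e2 : ev (Cplus D) (fun h : Pt → ℤ => ((((h 0 - 1) / 2 : ℤ)) : ℝ) ^ 2) ≤
      ev (Cplus D) (fun h : Pt → ℤ => (1 / 2) * ((h 0 : ℤ) : ℝ) ^ 2 + 1 / 2) := by
    refine ev_mono _ _ _ fun h hh => ?_
    rw [Cplus, mem_ConfF] at hh
    obtain ⟨a, ha⟩ := hh.1.1 0
    rw [ha]
    have h5 : (2 * a + 1 - 1) / 2 = a := by omega
    rw [h5]
    push_cast
    nlinarith [sq_nonneg ((a : ℝ) + 1)]
  refine e2.trans ?_
  rw [ev_add, ev_const_mul, ev_const _ hpn]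
  linarith

theorem finite_lip0 (D : Finset Pt) : (Lip0 D).Finite ∧ (Lip0 D).Nonempty := by
  rw [lip0_eq]
  exact ⟨(Finset.finite_toSet _).image _, (Finset.coe_nonempty.2 (nonempty_ConfF _ _ _)).image _⟩

theorem hexa_aux (n : ℕ) : (0 : Pt) ∈ GFF.hexa n ∧ (((n : ℤ) + 1, 0) : Pt) ∉ GFF.hexa n ∧
    (((n : ℤ) + 2, 0) : Pt) ∉ GFF.hexa n ∧ Adj (((n : ℤ) + 1, 0) : Pt) ((n : ℤ) + 2, 0) := by
  refine ⟨?_, ?_, ?_, ?_⟩
  · unfold GFF.hexa
    simp only [Finset.mem_filter, Finset.mem_product, Finset.mem_Icc, Prod.fst_zero,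
      Prod.snd_zero]
    refine ⟨⟨⟨by omega, by omega⟩, by omega, by omega⟩, by simp⟩
  · unfold GFF.hexa
    simp only [Finset.mem_filter, Finset.mem_product, Finset.mem_Icc]
    omega
  · unfold GFF.hexa
    simp only [Finset.mem_filter, Finset.mem_product, Finset.mem_Icc]
    omega
  · unfold Adj
    simp only [Set.mem_insert_iff, Set.mem_singleton_iff, Prod.mk.injEq]
    left; constructor <;> ring

/-- Logarithmic growth of the second moments in the plane implies `0 < κ`. -/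
theorem pos_core {P : Measure (Pt → ℤ)} {κ : ℝ} (hκ : 0 ≤ κ)
    (hlog : Tendsto (fun x : ℤ × ℤ => (∫ φ, ((φ x : ℤ) : ℝ) ^ 2 ∂(P.map GFF.dbl)) /
      Real.log (GFF.len x)) cofinite (𝓝 (κ / Real.pi))) {c : ℝ} (hc : 0 < c)
    (h : ∀ᶠ n : ℕ in atTop, c * Real.log n ≤
      16 * (∫ φ : Pt → ℤ, ((φ (((2 * n : ℕ) : ℤ) + 1, 0) : ℤ) : ℝ) ^ 2 ∂P) + 9) : 0 < κ := by
  refine lt_of_le_of_ne hκ fun h0 => ?_
  rw [← h0, zero_div] at hlog
  have hinj : Function.Injective fun n : ℕ => ((((2 * n : ℕ) : ℤ) + 1, 0) : ℤ × ℤ) := by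
    intro a b hab
    have := congrArg Prod.fst hab
    simp only at this
    omega
  have h1 := hlog.comp (hinj.tendsto_cofinite)
  rw [Nat.cofinite_eq_atTop] at h1
  have hev : ∀ x : Pt, ∫ φ, ((φ x : ℤ) : ℝ) ^ 2 ∂(P.map GFF.dbl) =
      4 * ∫ φ, ((φ x : ℤ) : ℝ) ^ 2 ∂P := by
    intro x
    have hmx : Measurable fun φ : Pt → ℤ => ((φ x : ℤ) : ℝ) ^ 2 :=
      ((measurable_from_top (f := fun z : ℤ => (z : ℝ))).comp (measurable_pi_apply x)).pow_const 2
    rw [integral_map GFF.measurable_dbl.aemeasurable hmx.aestronglyMeasurable,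
      ← integral_const_mul]
    refine integral_congr_ae (ae_of_all _ fun φ => ?_)
    show (((GFF.dbl φ x : ℤ)) : ℝ) ^ 2 = 4 * ((φ x : ℤ) : ℝ) ^ 2
    unfold GFF.dbl
    push_cast; ring
  have h2 : ∀ᶠ n : ℕ in atTop,
      (4 * ∫ φ : Pt → ℤ, ((φ (((2 * n : ℕ) : ℤ) + 1, 0) : ℤ) : ℝ) ^ 2 ∂P) /
      Real.log (GFF.len (((2 * n : ℕ) : ℤ) + 1, 0)) < c / 16 := by
    have := h1.eventually_lt_const (show (0 : ℝ) < c / 16 by positivity)
    refine this.mono fun n hn => ?_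
    simp only [Function.comp_def] at hn
    rwa [hev] at hn
  have h3 : Tendsto (fun n : ℕ => Real.log (n : ℝ)) atTop atTop :=
    Real.tendsto_log_atTop.comp tendsto_natCast_atTop_atTop
  have h4 : ∀ᶠ n : ℕ in atTop, 36 / c < Real.log (n : ℝ) := h3.eventually_gt_atTop _
  obtain ⟨n, hn2, hn4, hn1, hn3⟩ := (h2.and (h4.and (h.and (eventually_ge_atTop 3)))).exists
  have hlen : GFF.len (((2 * n : ℕ) : ℤ) + 1, 0) = 2 * (n : ℝ) + 1 := by
    unfold GFF.len
    have : (((((2 * n : ℕ) : ℤ) + 1 : ℤ)) : ℝ) = 2 * (n : ℝ) + 1 := by push_cast; ring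
    simp only [this, Int.cast_zero, mul_zero, add_zero, ne_eq, OfNat.ofNat_ne_zero,
      not_false_eq_true, zero_pow]
    exact Real.sqrt_sq (by positivity)
  rw [hlen] at hn2
  have hnr : (3 : ℝ) ≤ n := by exact_mod_cast hn3
  have hlp : 0 < Real.log (2 * (n : ℝ) + 1) := Real.log_pos (by linarith)
  have hl2 : Real.log (2 * (n : ℝ) + 1) ≤ 2 * Real.log n := by
    rw [← Real.log_rpow (by linarith), Real.rpow_two]
    exact Real.log_le_log (by linarith) (by nlinarith)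
  rw [div_lt_iff₀ hlp] at hn2
  rw [div_lt_iff₀ hc] at hn4
  nlinarith

/-- The theorem of Glazman and Manolescu at the centre of the hexagons: the variance of the
uniform Lipschitz function with boundary values `0` grows at least logarithmically. -/
def LogVar : Prop := ∃ c : ℝ, 0 < c ∧ ∃ n₀ : ℕ, ∀ n : ℕ, n₀ ≤ n →
  c * Real.log n ≤ variance (fun φ : ℤ × ℤ → ℤ => ((φ 0 : ℤ) : ℝ)) (uniformOn (Lip0 (GFF.hexa n)))

/-- The logarithmic growth of the variances implies `0 < κ`. -/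
theorem pos_of_logVar {P : Measure (Pt → ℤ)} {κ : ℝ} (hP : GFF.Plane P) (hκ : 0 ≤ κ)
    (hlog : Tendsto (fun x : ℤ × ℤ => (∫ φ, ((φ x : ℤ) : ℝ) ^ 2 ∂(P.map GFF.dbl)) /
      Real.log (GFF.len x)) cofinite (𝓝 (κ / Real.pi)))
    (hGM : LogVar) : 0 < κ := by
  obtain ⟨c, hc, n₀, hn₀⟩ := hGM
  refine pos_core hκ hlog hc ?_
  filter_upwards [eventually_ge_atTop n₀, eventually_ge_atTop 1] with n h1 h2
  obtain ⟨q1, q2, q3, q4⟩ := hexa_aux (2 * n)
  have hm0 : Measurable fun h : Pt → ℤ => ((h 0 : ℤ) : ℝ) :=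
    (measurable_from_top (f := fun z : ℤ => (z : ℝ))).comp (measurable_pi_apply 0)
  have : IsProbabilityMeasure (uniformOn (Lip0 (GFF.hexa (2 * n)))) :=
    isProbabilityMeasure_uniformOn (finite_lip0 _).1 (finite_lip0 _).2
  have h3 := hn₀ (2 * n) (by omega)
  have h4 : variance (fun φ : ℤ × ℤ → ℤ => ((φ 0 : ℤ) : ℝ))
      (uniformOn (Lip0 (GFF.hexa (2 * n)))) ≤
      ∫ h, ((h 0 : ℤ) : ℝ) ^ 2 ∂(uniformOn (Lip0 (GFF.hexa (2 * n)))) :=
    variance_le_expectation_sq hm0.aestronglyMeasurable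
  have h5 : Real.log (n : ℝ) ≤ Real.log ((2 * n : ℕ) : ℝ) := by
    have : (1 : ℝ) ≤ n := by exact_mod_cast h2
    refine Real.log_le_log (by linarith) ?_
    push_cast; linarith
  have h6 := mom_le hP q1 q2 q3 q4
  have h7 := mul_le_mul_of_nonneg_left h5 hc.le
  exact h7.trans (h3.trans (h4.trans h6))

/-- The theorem of Glazman and Manolescu: in every finite domain with connected complement, the
second moment at `0` of the uniform Lipschitz function with boundary values `0` grows at least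
logarithmically in the distance to the boundary. -/
theorem pos_of_gm {P : Measure (Pt → ℤ)} {κ : ℝ} (hP : GFF.Plane P) (hκ : 0 ≤ κ)
    (hlog : Tendsto (fun x : ℤ × ℤ => (∫ φ, ((φ x : ℤ) : ℝ) ^ 2 ∂(P.map GFF.dbl)) /
      Real.log (GFF.len x)) cofinite (𝓝 (κ / Real.pi)))
    (hGM : ∃ c > 0, ∀ (D : Finset (ℤ × ℤ)) (n : ℕ),
      (∀ x y, x ∉ D → y ∉ D → Relation.ReflTransGen (fun u v => GFF.Adj u v ∧ v ∉ D) x y) →
      (∀ x, GFF.len x ≤ n → x ∈ D) →
      c * Real.log n ≤ ∫ h, (h 0 : ℝ) ^ 2 ∂uniformOn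
        {h : ℤ × ℤ → ℤ | (∀ x, x ∉ D → h x = 0) ∧ ∀ x y, GFF.Adj x y → |h x - h y| ≤ 1}) :
    0 < κ := by
  obtain ⟨c, hc, h⟩ := hGM
  refine pos_core hκ hlog hc (Eventually.of_forall fun n => ?_)
  obtain ⟨q1, q2, q3, q4⟩ := hexa_aux (2 * n)
  refine (h (GFF.hexa (2 * n)) n (fun x y hx hy => (A.Cc22.cc_hexa _ x y hx hy).2)
    fun x hx => ?_).trans (mom_le hP q1 q2 q3 q4)
  rw [A.Cc22.mem_hexa]
  unfold GFF.len at hx
  rw [Real.sqrt_le_left (by positivity)] at hx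
  have e1 : (x.1 : ℝ) ^ 2 ≤ (2 * n) ^ 2 := by nlinarith [sq_nonneg ((x.1 : ℝ) + 2 * x.2)]
  have e2 : (x.2 : ℝ) ^ 2 ≤ (2 * n) ^ 2 := by nlinarith [sq_nonneg (2 * (x.1 : ℝ) + x.2)]
  have e3 : ((x.1 : ℝ) + x.2) ^ 2 ≤ (2 * n) ^ 2 := by nlinarith [sq_nonneg ((x.1 : ℝ) - x.2)]
  have f1 := abs_le_of_sq_le_sq' e1 (by positivity)
  have f2 := abs_le_of_sq_le_sq' e2 (by positivity)
  have f3 := abs_le_of_sq_le_sq' e3 (by positivity)
  rw [abs_le]
  push_cast
  exact ⟨⟨by exact_mod_cast f1.1, by exact_mod_cast f1.2⟩,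
    ⟨by exact_mod_cast f2.1, by exact_mod_cast f2.2⟩,
    by exact_mod_cast f3.1, by exact_mod_cast f3.2⟩

end Vale.Agent.P153.F.GM
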