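import Vale.Agent.P153.F.GM

/-!
P153-F: the logarithmic lower bound for the second moments in finite domains with free boundary
values `±1` implies `0 < κ`.
-/

namespace Vale.Agent.P153.F.GM

open Finset Filter Topology MeasureTheory ProbabilityTheory
open Vale.Agent.P153
open Vale.Agent.P153.F.X
open Vale.Agent.P153.F.Top (Om Cone ze vh)
open scoped ENNReal

/-- The heights in the region `D` are, up to the global sign, the free ensemble. -/
theorem odd2_eq (D : Finset Pt) :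
    GFF.Odd2 D = (fun h : Pt → ℤ => -h) '' (FreeF (innF D) D : Set (Pt → ℤ)) := by
  ext h
  constructor
  · rintro ⟨h1, h2, h3, h4⟩
    refine ⟨-h, ?_, neg_neg h⟩
    rw [Finset.mem_coe, mem_free_inn]
    refine ⟨⟨fun x => (h1 x).neg, fun x y hxy => ?_⟩, fun x hx => ?_, fun x hx hex => ?_⟩
    · show |-h x - -h y| ≤ 2
      by_cases hx : x ∈ D
      · by_cases hy : y ∈ D
        · have := h2 x hx y hy hxy
          rw [abs_le] at this ⊢; omega
        · have h5 := h3 x hx ⟨y, hxy, hy⟩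
          rw [h4 y hy, abs_le]; omega
      · by_cases hy : y ∈ D
        · have h5 := h3 y hy ⟨x, hxy.symm, hx⟩
          rw [h4 x hx, abs_le]; omega
        · rw [h4 x hx, h4 y hy]; norm_num
    · show -h x = 1
      rw [h4 x (by simpa using hx)]; norm_num
    · show |-h x| = 1
      obtain ⟨y, hxy, hy⟩ := hex
      rcases h3 x (by simpa using hx) ⟨y, hxy, by simpa using hy⟩ with h5 | h5 <;>
        rw [h5] <;> norm_num
  · rintro ⟨g, hg, rfl⟩
    rw [Finset.mem_coe, mem_free_inn] at hg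
    obtain ⟨⟨h1, h2⟩, h3, h4⟩ := hg
    refine ⟨fun x => (h1 x).neg, fun x _ y _ hxy => ?_, fun x hx hex => ?_, fun x hx => ?_⟩
    · show |-g x - -g y| ≤ 2
      have := h2 x y hxy
      rw [abs_le] at this ⊢; omega
    · show -g x = 1 ∨ -g x = -1
      obtain ⟨y, hxy, hy⟩ := hex
      have h5 := h4 x (by simpa using hx) ⟨y, hxy, by simpa using hy⟩
      rcases abs_eq (by norm_num : (0 : ℤ) ≤ 1) |>.1 h5 with h6 | h6 <;> omega
    · show -g x = -1
      rw [h3 x (by simpa using hx)]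

/-- The second moment of the height at `0` in the region `D`. -/
theorem sq_le {P : Measure (Pt → ℤ)} (hP : GFF.Plane P) {D : Finset Pt} {x y : Pt}
    (h0 : (0 : Pt) ∈ innF D) (hx : x ∉ D) (hy : y ∉ D) (hxy : Adj x y)
    (hint : Integrable (fun φ : Pt → ℤ => (φ x : ℝ) ^ 2) P) :
    ∫ h, ((h 0 : ℤ) : ℝ) ^ 2 ∂(uniformOn (GFF.Odd2 D)) ≤
      16 * (∫ φ, (φ x : ℝ) ^ 2 ∂P) + 4 := by
  classical
  have hsub : ∀ z, z ∈ innF D → z ∈ D := fun z hz => innF_subset D hz
  refine le_trans (le_of_eq ?_) (ze_le hP (F := innF D) (fun h => hx (hsub _ h))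
    (fun h => hy (hsub _ h)) hxy hint)
  have hclo : clo (innF D) ⊆ D := by
    intro z hz
    unfold clo at hz
    rw [Finset.mem_union] at hz
    rcases hz with hz | hz
    · exact hsub z hz
    · rw [Finset.mem_biUnion] at hz
      obtain ⟨a, ha, h1⟩ := hz
      refine (mem_innF.1 ha).2 z ?_
      unfold Adj
      simp only [Finset.mem_insert, Finset.mem_singleton] at h1
      simp only [Set.mem_insert_iff, Set.mem_singleton_iff, Prod.mk.injEq]
      rcases h1 with rfl | rfl | rfl | rfl | rfl | rfl <;> simp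
  have h1 : ze (innF D) sq0 = ev (FreeF (innF D) D) (fun h => ((h 0 : ℤ) : ℝ) ^ 2) := by
    have e1 : ze (innF D) sq0 =
        ev (FreeF (innF D) (clo (innF D))) (fun h => ((h 0 : ℤ) : ℝ) ^ 2) := by
      unfold ze
      congr 1
      funext h
      rw [sq0_eq]
      unfold vh
      rw [if_pos h0]
    rw [e1]
    refine (ev_window hclo (sub_clo _) (fun a ha b hab => ?_) _ fun h h' hh => ?_).symm
    · unfold clo
      rw [Finset.mem_union, Finset.mem_biUnion]
      right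
      refine ⟨a, ha, ?_⟩
      have h2 := LE.adj_cases hab
      simp only [Finset.mem_insert, Finset.mem_singleton, Prod.ext_iff]
      omega
    · rw [hh 0 (sub_clo _ 0 h0)]
  rw [h1]
  set S : Finset (Pt → ℤ) := (FreeF (innF D) D).image fun h => -h with hS
  have hSc : (S : Set (Pt → ℤ)) = GFF.Odd2 D := by
    rw [hS, Finset.coe_image, odd2_eq]
  have hinj : Set.InjOn (fun h : Pt → ℤ => -h) (FreeF (innF D) D : Set (Pt → ℤ)) :=
    neg_injective.injOn
  rw [← hSc]
  rw [integral_uniformOn]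
  unfold ev
  rw [hS, Finset.sum_image hinj, Finset.card_image_of_injOn hinj]
  congr 1
  refine Finset.sum_congr rfl fun h _ => ?_
  show ((((-h) 0 : ℤ)) : ℝ) ^ 2 = _
  rw [Pi.neg_apply]; push_cast; ring

theorem hexa_inn {n : ℕ} (hn : 1 ≤ n) : (0 : Pt) ∈ innF (GFF.hexa n) := by
  rw [mem_innF]
  refine ⟨(hexa_aux n).1, fun y hy => ?_⟩
  have h5 := LE.adj_cases hy
  simp only [Prod.fst_zero, Prod.snd_zero] at h5
  unfold GFF.hexa
  simp only [Finset.mem_filter, Finset.mem_product, Finset.mem_Icc, abs_le]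
  omega

/-- Logarithmic growth of the second moments with free boundary values `±1` implies `0 < κ`. -/
theorem pos_of_pm {P : Measure (Pt → ℤ)} {κ : ℝ} (hP : GFF.Plane P) (hκ : 0 ≤ κ)
    (hlog : Tendsto (fun x : ℤ × ℤ => (∫ φ, ((φ x : ℤ) : ℝ) ^ 2 ∂(P.map GFF.dbl)) /
      Real.log (GFF.len x)) cofinite (𝓝 (κ / Real.pi)))
    (hGM : ∃ c > 0, ∀ (D : Finset (ℤ × ℤ)) (n : ℕ),
      (∀ x y, x ∉ D → y ∉ D → Relation.ReflTransGen (fun u v => GFF.Adj u v ∧ v ∉ D) x y) →
      (∀ x, GFF.len x ≤ n → x ∈ D) →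
      c * Real.log n ≤ ∫ h, (h 0 : ℝ) ^ 2 ∂uniformOn (GFF.Odd2 D)) :
    0 < κ := by
  obtain ⟨c, hc, h⟩ := hGM
  refine pos_core hκ hlog hc ((eventually_ge_atTop 1).mono fun n hn => ?_)
  obtain ⟨q1, q2, q3, q4⟩ := hexa_aux (2 * n)
  have hint : ∀ x, Integrable (fun φ : Pt → ℤ => (φ x : ℝ) ^ 2) P := fun x => by
    simpa only [sq] using CLT.integrable_mul_coord hP x x
  refine (h (GFF.hexa (2 * n)) n (fun x y hx hy => (A.Cc22.cc_hexa _ x y hx hy).2)
    fun x hx => ?_).trans ((sq_le hP (hexa_inn (by omega)) q2 q3 q4 (hint _)).trans (by linarith))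
  rw [A.Cc22.mem_hexa]
  unfold GFF.len at hx
  rw [Real.sqrt_le_left (by positivity)] at hx
  have e1 : (x.1 : ℝ) ^ 2 ≤ (2 * n) ^ 2 := by nlinarith [sq_nonneg ((x.1 : ℝ) + 2 * x.2)]
  have e2 : (x.2 : ℝ) ^ 2 ≤ (2 * n) ^ 2 := by nlinarith [sq_nonneg (2 * (x.1 : ℝ) + x.2)]
  have e3 : ((x.1 : ℝ) + x.2) ^ 2 ≤ (2 * n) ^ 2 := by nlinarith [sq_nonneg ((x.1 : ℝ) - x.2)]
  have f1 := abs_le_of_sq_le_sq' e1 (by positivity)
  have f2 := abs_le_of_sq_le_sq' e2 (by positivity)
  have f3 := abs_le_of_sq_le_sq' e3 (by positivity)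
  rw [abs_le]
  push_cast
  exact ⟨⟨by exact_mod_cast f1.1, by exact_mod_cast f1.2⟩,
    ⟨by exact_mod_cast f2.1, by exact_mod_cast f2.2⟩,
    by exact_mod_cast f3.1, by exact_mod_cast f3.2⟩

end Vale.Agent.P153.F.GM
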