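import Vale.Agent.P153.F.Top.Key5
import Vale.Agent.P153.F.Top.Cells
import Vale.Agent.P153.F.Top.Dominate
import Vale.Agent.P153.F.Top.Mono
import Vale.Agent.P153.F.X.FrB
import Vale.Agent.P153.F.X.XstA
import Vale.Agent.P153.F.X.SdX
import Vale.Agent.P153.F.X.Dec
import Vale.Agent.P153.F.X.Mb
import Vale.Agent.P153.F.X.UpS
import Vale.Agent.P153.F.X.Int
import Vale.Agent.P153.F.X.Conf
import Vale.Agent.P153.F.X.Far
import Vale.Agent.P153.F.X.Geom
import Vale.Agent.P153.F.X.Gap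
import Vale.Agent.P153.F.X.Cnt
import Vale.Agent.P153.F.SD.Sd1

/-!
P153-F: all inputs of `key_of` from the plane theorem and the X-level.
-/

set_option autoImplicit false

namespace Vale.Agent.P153.F

open Filter Topology MeasureTheory
open Vale.Agent.P153.F.X

/-- What the X-level needs from the probabilistic blocks. -/
structure Lvl (P : Measure (Pt → ℤ)) : Prop where
  rsw : S_rsw P
  low : S_low P
  ext : S_ext P
  lowc : S_lowc P
  mom : S_mom P
  mm : ∀ δ : ℕ → ℝ, (∀ n, 0 < δ n) → Tendsto δ atTop (𝓝 0) → S_mm P δ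
  momJ : MomJ P
  pos : S_pos P

theorem inputs_of {P : Measure (Pt → ℤ)} {κ' : ℝ} (hP : GFF.Plane P) (hS : GFF.SpecOut P κ')
    (hC : GFF.RowCLT P κ') (hκ : 0 < κ') (L : Lvl P) {δ : ℕ → ℝ} (hδ : ∀ n, 0 < δ n)
    (hlim : Tendsto δ atTop (𝓝 0)) : Top.Inputs (4 * κ' / √3) δ := by
  have h3 : (0 : ℝ) < √3 := by positivity
  have hprob := hP.prob
  obtain ⟨hclt, A, hA0, hA⟩ := SD.clt_of hP hS hC
  have hint : S_int P := s_int hP
  have hup : S_up P := s_up hP hint
  have hgeom : S_geom := s_geom s_conf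
  have hcnt : S_cnt P := s_cnt hP.shift L.rsw L.momJ
  have hgap : S_gap P := s_gap L.ext hcnt s_conf s_loc hint L.rsw
  have hemom : S_emom P := s_emom L.ext s_conf s_loc
  have hmm := L.mm δ hδ hlim
  have hmb : Top.S_mb δ := s_mb hδ hlim L.low hmm L.rsw s_loc
  have hl2 : Top.S_l2 δ := s_l2 hδ hlim L.low hmm L.rsw s_loc
  have hdec : Top.S_dec δ := s_dec hint L.low L.lowc hgap L.mom L.rsw s_loc s_conf hδ hlim hmb
  have hsd : SdH (4 * κ' / √3) P δ := sdH_of hP hA0 hA hclt hint s_loc hδ hlim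
  have h0 := xst0_of' hδ hlim Top.s_mono hint L.low hup s_loc L.rsw hgap L.pos hemom hmm hgeom
    far hsd
  exact ⟨by positivity, hδ, hlim, Top.s_mono, hmb, hl2, hdec,
    xst_of_xst0 hδ Top.s_mono hmb hl2 h0⟩

theorem key_all {P : Measure (Pt → ℤ)} {κ' : ℝ} (hP : GFF.Plane P) (hS : GFF.SpecOut P κ')
    (hC : GFF.RowCLT P κ') (hκ : 0 < κ') (L : Lvl P) {δ : ℕ → ℝ} (hδ : ∀ n, 0 < δ n)
    (hlim : Tendsto δ atTop (𝓝 0)) : Top.S_key (4 * κ' / √3) δ :=
  Top.key_of (inputs_of hP hS hC hκ L hδ hlim) Top.exists_cells Top.exists_dom Top.exists_big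
    Top.pos_part

end Vale.Agent.P153.F
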