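import Vale.Agent.P153.F.Sandwich
import Vale.Agent.P153.Model.Box

/-!
# P153, block F: the sandwich in the plane

`Gb mu`: `mu` is a (possibly infinite) Gibbs measure of absolute odd heights.
-/

namespace Vale.Agent.P153.F

open Finset MeasureTheory Vale.Agent.P153

/-- The configurations which agree with `a` on `B`. -/
def Cyl (B : Finset Pt) (a : Hg) : Set Hg := {h | ∀ x ∈ B, h x = a x}

/-- Gibbs measures of absolute heights. -/
structure Gb (mu : Measure Hg) : Prop where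
  lip : ∀ᵐ h ∂mu, Lip h
  fin : ∀ (B : Finset Pt) (a : Hg), B.Nonempty → mu (Cyl B a) ≠ ⊤
  eq : ∀ (L B : Finset Pt) (a b : Hg), L ⊆ B → (∀ x ∈ L, ∀ y, Adj x y → y ∈ B) → Lip a → Lip b →
    (∀ x, x ∉ L → a x = b x) → mu (Cyl B a) = mu (Cyl B b)

theorem measurable_cyl (B : Finset Pt) (a : Hg) : MeasurableSet (Cyl B a) := by
  have : Cyl B a = ⋂ x ∈ B, (fun h : Hg => h x) ⁻¹' {a x} := by
    ext h
    simp [Cyl]
  rw [this]
  exact B.measurableSet_biInter fun x _ => measurable_pi_apply x (measurableSet_singleton _)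

/-- One frozen pattern. -/
theorem integral_cyl {mu : Measure Hg} (hmu : Gb mu) {L B : Finset Pt}
    (hLB : L ⊆ B) (hN : ∀ x ∈ L, ∀ y, Adj x y → y ∈ B) {ξ : Hg} (hξ : Lip ξ) (f : Hg → ℝ)
    (hf : ∀ h h' : Hg, (∀ x ∈ B, h x = h' x) → f h = f h') (hint : Integrable f mu) :
    ∫ h in Cyl (B \ L) ξ, f h ∂mu =
      mu.real (Cyl B ξ) * ∑ g ∈ (finite_fz L ξ).toFinset, f g := by
  classical
  set Q : Finset Hg := (finite_fz L ξ).toFinset with hQ
  have hQmem : ∀ g, g ∈ Q ↔ Lip g ∧ ∀ x, x ∉ L → g x = ξ x := by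
    intro g
    rw [hQ, Set.Finite.mem_toFinset]
    rfl
  have hae : (Cyl (B \ L) ξ : Set Hg) =ᵐ[mu] ⋃ g ∈ Q, Cyl B g := by
    filter_upwards [hmu.lip] with h hh
    apply propext
    constructor
    · intro hc
      have hc' : ∀ x ∈ B \ L, h x = ξ x := hc
      have hg : comb (L : Set Pt) h ξ ∈ Q := by
        rw [hQmem]
        refine ⟨⟨fun x => ?_, fun x y hxy => ?_⟩, fun x hx => comb_out hx⟩
        · by_cases hx : x ∈ (L : Set Pt)
          · rw [comb_in hx]; exact hh.1 x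
          · rw [comb_out hx]; exact hξ.1 x
        · have key : ∀ x y, Adj x y → x ∈ (L : Set Pt) → y ∉ (L : Set Pt) → |h x - ξ y| ≤ 2 := by
            intro x y hxy hx hy
            rw [← hc' y (Finset.mem_sdiff.2 ⟨hN x hx y hxy, hy⟩)]
            exact hh.2 x y hxy
          by_cases hx : x ∈ (L : Set Pt) <;> by_cases hy : y ∈ (L : Set Pt)
          · rw [comb_in hx, comb_in hy]; exact hh.2 x y hxy
          · rw [comb_in hx, comb_out hy]; exact key x y hxy hx hy
          · rw [comb_out hx, comb_in hy, abs_sub_comm]; exact key y x hxy.symm hy hx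
          · rw [comb_out hx, comb_out hy]; exact hξ.2 x y hxy
      have hm : h ∈ ⋃ g ∈ Q, Cyl B g := by
        refine Set.mem_biUnion hg fun x hx => ?_
        by_cases hxL : x ∈ (L : Set Pt)
        · rw [comb_in hxL]
        · rw [comb_out hxL]
          exact hc' x (Finset.mem_sdiff.2 ⟨hx, hxL⟩)
      exact hm
    · intro hc
      have hc' : h ∈ ⋃ g ∈ Q, Cyl B g := hc
      rw [Set.mem_iUnion₂] at hc'
      obtain ⟨g, hg, hhg⟩ := hc'
      intro x hx
      rw [Finset.mem_sdiff] at hx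
      rw [hhg x hx.1, ((hQmem g).1 hg).2 x hx.2]
  rw [setIntegral_congr_set hae, integral_biUnion_finset Q
    (fun g _ => measurable_cyl B g) ?_ fun g _ => hint.integrableOn, Finset.mul_sum]
  · refine Finset.sum_congr rfl fun g hg => ?_
    have h1 : ∫ h in Cyl B g, f h ∂mu = ∫ h in Cyl B g, f g ∂mu := by
      refine setIntegral_congr_fun (measurable_cyl B g) fun h hh => ?_
      exact hf h g hh
    have h2 : mu (Cyl B g) = mu (Cyl B ξ) :=
      hmu.eq L B g ξ hLB hN ((hQmem g).1 hg).1 hξ ((hQmem g).1 hg).2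
    rw [h1, setIntegral_const, smul_eq_mul, Measure.real, h2, Measure.real]
  · intro g hg g' hg' hne
    rw [Function.onFun, Set.disjoint_left]
    intro h hh hh'
    apply hne
    funext x
    by_cases hx : x ∈ L
    · rw [← hh x (hLB hx), hh' x (hLB hx)]
    · rw [((hQmem g).1 hg).2 x hx, ((hQmem g').1 hg').2 x hx]

/-- Inequalities between integrals of local functions follow from the frozen ones. -/
theorem integral_nonneg_of_frozen {mu : Measure Hg} (hmu : Gb mu) (L : Finset Pt) (f : Hg → ℝ)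
    (B₀ : Finset Pt) (hf : ∀ h h' : Hg, (∀ x ∈ B₀, h x = h' x) → f h = f h')
    (hint : Integrable f mu)
    (h0 : ∀ ξ : Hg, Lip ξ → 0 ≤ ∑ g ∈ (finite_fz L ξ).toFinset, f g) : 0 ≤ ∫ h, f h ∂mu := by
  classical
  set B : Finset Pt := insert (0, 0) (B₀ ∪ L ∪ L.biUnion fun x =>
    {(x.1 + 1, x.2), (x.1 - 1, x.2), (x.1, x.2 + 1), (x.1, x.2 - 1), (x.1 + 1, x.2 - 1),
      (x.1 - 1, x.2 + 1)}) with hB
  have hB0 : ∀ x ∈ B₀, x ∈ B := fun x hx => by simp [hB, hx]
  have hLB : L ⊆ B := fun x hx => by simp [hB, hx]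
  have hN : ∀ x ∈ L, ∀ y, Adj x y → y ∈ B := by
    intro x hx y hxy
    rw [hB]
    refine Finset.mem_insert_of_mem (Finset.mem_union_right _ (Finset.mem_biUnion.2 ⟨x, hx, ?_⟩))
    rw [Fv.adj_iff] at hxy
    simp only [Finset.mem_insert, Finset.mem_singleton, Prod.ext_iff]
    omega
  have hfB : ∀ h h' : Hg, (∀ x ∈ B, h x = h' x) → f h = f h' := fun h h' hh =>
    hf h h' fun x hx => hh x (hB0 x hx)
  -- partition according to the pattern on `B \ L`
  set π : Hg → (↥(B \ L) → ℤ) := fun h x => h x with hπ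
  have hmeas : Measurable π := measurable_pi_iff.2 fun x => measurable_pi_apply _
  have hpart : ∫ h, f h ∂mu = ∑' ζ : ↥(B \ L) → ℤ, ∫ h in π ⁻¹' {ζ}, f h ∂mu := by
    have hU : (⋃ ζ : ↥(B \ L) → ℤ, π ⁻¹' {ζ}) = Set.univ := by
      ext h
      simp
    rw [← setIntegral_univ, ← hU]
    refine integral_iUnion (fun ζ => hmeas (measurableSet_singleton ζ)) ?_ ?_
    · intro ζ ζ' hne
      rw [Function.onFun, Set.disjoint_left]
      intro h h1 h2
      exact hne (h1.symm.trans h2)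
    · rw [hU, integrableOn_univ]
      exact hint
  rw [hpart]
  refine tsum_nonneg fun ζ => ?_
  by_cases hex : ∃ ξ : Hg, Lip ξ ∧ π ξ = ζ
  · obtain ⟨ξ, hξ, rfl⟩ := hex
    have hset : π ⁻¹' {π ξ} = Cyl (B \ L) ξ := by
      ext h
      simp only [Set.mem_preimage, Set.mem_singleton_iff, Cyl, Set.mem_ofPred_eq]
      constructor
      · intro h1 x hx
        exact congrFun h1 ⟨x, hx⟩
      · intro h1
        funext x
        exact h1 x.1 x.2
    rw [hset, integral_cyl hmu hLB hN hξ f hfB hint]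
    exact mul_nonneg measureReal_nonneg (h0 ξ hξ)
  · have hz : mu (π ⁻¹' {ζ}) = 0 := by
      have h1 : (π ⁻¹' {ζ}) ⊆ {h | ¬ Lip h} := by
        intro h hh hlip
        exact hex ⟨h, hlip, hh⟩
      exact measure_mono_null h1 (ae_iff.1 hmu.lip)
    rw [Measure.restrict_eq_zero.2 hz, integral_zero_measure]

/-- Bound for the heights on the event. -/
theorem bound_of_av {S S' : Finset Pt} {h : Hg} (hh : Lip h) (hav : h ∈ Av ((S : Set Pt)ᶜ) S')
    {x : Pt} (hx : x ∈ S') : |h x| ≤ 1 + 2 * #S := by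
  classical
  have hO : ∀ x, x ∉ S → x ∈ (S : Set Pt)ᶜ := fun x hx => hx
  have hcoe := coe_un hO h
  set T := Un S ((S : Set Pt)ᶜ) h with hT
  have hcl : ∀ x y, x ∈ Clu ((S : Set Pt)ᶜ) h → y ∉ Clu ((S : Set Pt)ᶜ) h → Adj x y →
      |h x| = 1 ∧ |h y| = 1 := fun x y hx hy hxy => closed_of_cross hx hy hxy
  have h1 := comb_mem_right hh hcl
  have h2 : |comb (Clu ((S : Set Pt)ᶜ) h) (fun _ => 1) h x| ≤ 1 + 2 * (#T : ℤ) := by
    refine h1.1.bdd (D := T) (fun y hy => ?_) x
    have hy' : y ∈ Clu ((S : Set Pt)ᶜ) h := by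
      by_contra hcon
      have : y ∈ (T : Set Pt) := by rw [hcoe]; exact hcon
      exact hy this
    rw [comb_in hy', abs_one]
  rw [comb_out (hav x hx)] at h2
  have h3 : #T ≤ #S := Finset.card_le_card (Finset.filter_subset _ _)
  have h4 : (#T : ℤ) ≤ #S := by exact_mod_cast h3
  linarith

theorem measurable_pl {k : ℕ} (I : Finset Pt) (φ : Fin k → Pt → ℝ) : Measurable (pl I φ) := by
  unfold pl
  refine Finset.measurable_fun_prod _ fun i _ => Finset.measurable_fun_sum _ fun x _ => ?_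
  exact (measurable_from_top.comp (measurable_pi_apply x)).const_mul _

/-- Integrability of the weighted moments. -/
theorem integrable_mul_pl {mu : Measure Hg} (hmu : Gb mu) {k : ℕ} {S S' I : Finset Pt}
    {φ : Fin k → Pt → ℝ} {X : Hg → ℝ} (hI : I ⊆ S')
    (hAv : ∀ h, Lip h → X h ≠ 0 → h ∈ Av ((S : Set Pt)ᶜ) S') (hint : Integrable X mu) :
    Integrable (fun h => X h * pl I φ h) mu := by
  classical
  set C : ℝ := ∏ i : Fin k, ∑ x ∈ I, |φ i x| * (1 + 2 * #S) with hC
  refine Integrable.mono' (hint.norm.mul_const C)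
    (hint.aestronglyMeasurable.mul (measurable_pl I φ).aestronglyMeasurable) ?_
  filter_upwards [hmu.lip] with h hh
  rw [norm_mul]
  by_cases hX : X h = 0
  · rw [hX, norm_zero, zero_mul, zero_mul]
  · refine mul_le_mul_of_nonneg_left ?_ (norm_nonneg _)
    rw [Real.norm_eq_abs, pl, Finset.abs_prod]
    refine Finset.prod_le_prod (fun i _ => abs_nonneg _) fun i _ => ?_
    refine (Finset.abs_sum_le_sum_abs _ _).trans (Finset.sum_le_sum fun x hx => ?_)
    rw [abs_mul]
    refine mul_le_mul_of_nonneg_left ?_ (abs_nonneg _)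
    have h1 := bound_of_av hh (hAv h hh hX) (hI hx)
    have h2 : ((|h x| : ℤ) : ℝ) ≤ ((1 + 2 * #S : ℤ) : ℝ) := by exact_mod_cast h1
    push_cast at h2
    exact h2

/-- The sandwich in the plane. -/
theorem plane_sandwich {mu : Measure Hg} (hmu : Gb mu) {k : ℕ} {S S' I : Finset Pt}
    {φ : Fin k → Pt → ℝ} {X : Hg → ℝ} (hI : I ⊆ S') (hX : Wt ((S : Set Pt)ᶜ) S' X)
    (hloc : ∃ B : Finset Pt, ∀ h h' : Hg, (∀ x ∈ B, h x = h' x) → X h = X h')
    (hAv : ∀ h, Lip h → X h ≠ 0 → h ∈ Av ((S : Set Pt)ᶜ) S') (hint : Integrable X mu)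
    (hφ : ∀ i, ∀ x ∈ I, 0 ≤ φ i x) :
    Mo S' I φ * ∫ h, X h ∂mu ≤ ∫ h, X h * pl I φ h ∂mu ∧
    ∫ h, X h * pl I φ h ∂mu ≤ Mo S I φ * ∫ h, X h ∂mu := by
  classical
  obtain ⟨B, hB⟩ := hloc
  have hint2 := integrable_mul_pl (φ := φ) hmu hI hAv hint
  have hsum : ∀ (ξ : Hg) (f : Hg → ℝ), (∀ h, X h = 0 → f h = 0) →
      ∑ g ∈ (finite_fz S ξ).toFinset, f g = ∑ g ∈ CF S ξ ((S : Set Pt)ᶜ) S', f g := by
    intro ξ f hf
    symm
    refine Finset.sum_subset (fun g hg => ?_) fun g hg hg' => ?_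
    · rw [Set.Finite.mem_toFinset]
      exact (mem_CF.1 hg).1
    · rw [Set.Finite.mem_toFinset] at hg
      apply hf
      by_contra hne
      exact hg' (mem_CF.2 ⟨hg, hAv g hg.1 hne⟩)
  have hO : ∀ x, x ∉ S → x ∈ (S : Set Pt)ᶜ := fun x hx => hx
  have hSO : ∀ x, x ∈ S ↔ x ∉ (S : Set Pt)ᶜ := by
    intro x
    simp
  have hloc2 : ∀ h h' : Hg, (∀ x ∈ B ∪ I, h x = h' x) → X h = X h' ∧ pl I φ h = pl I φ h' := by
    intro h h' hh
    exact ⟨hB h h' fun x hx => hh x (Finset.mem_union_left _ hx),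
      pl_congr fun x hx => hh x (Finset.mem_union_right _ hx)⟩
  constructor
  · have h1 := integral_nonneg_of_frozen hmu S (fun h => X h * pl I φ h - Mo S' I φ * X h)
      (B ∪ I) (fun h h' hh => by
        obtain ⟨e1, e2⟩ := hloc2 h h' hh
        simp only [e1, e2]) (hint2.sub (hint.const_mul _)) fun ξ _ => by
        rw [hsum ξ _ fun h hh => by simp only [hh, zero_mul, mul_zero, sub_zero],
          Finset.sum_sub_distrib, ← Finset.mul_sum, sub_nonneg]
        exact (sandwich (ξ := ξ) hO hSO hI hX hφ).1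
    rw [integral_sub hint2 (hint.const_mul _), integral_const_mul] at h1
    linarith
  · have h1 := integral_nonneg_of_frozen hmu S (fun h => Mo S I φ * X h - X h * pl I φ h)
      (B ∪ I) (fun h h' hh => by
        obtain ⟨e1, e2⟩ := hloc2 h h' hh
        simp only [e1, e2]) ((hint.const_mul _).sub hint2) fun ξ _ => by
        rw [hsum ξ _ fun h hh => by simp only [hh, zero_mul, mul_zero, sub_zero],
          Finset.sum_sub_distrib, ← Finset.mul_sum, sub_nonneg]
        exact (sandwich (ξ := ξ) hO hSO hI hX hφ).2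
    rw [integral_sub (hint.const_mul _) hint2, integral_const_mul] at h1
    linarith

end Vale.Agent.P153.F
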