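import Vale.Agent.P153.F.Free

/-!
# P153, block F: the sandwich

Heights on the lattice, frozen (`= ξ`) off the finite set `Λ`. `O` contains everything off `Λ`;
`S'` is a finite set off `O`. On the event that the clusters of `O` do not meet `S'`, the moments
of nonnegative linear functionals supported in `S'` are between those of the free ensembles on
`S'` and on the complement `S` of `O`, also in the presence of a function `X ≥ 0` which depends on
the signed heights on `O` and on the absolute values off `S'`, and is decreasing in the latter.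
-/

namespace Vale.Agent.P153.F

open Finset Vale.Agent.P153

/-- Configurations with frozen outside. -/
def Fz (Λ : Finset Pt) (ξ : Hg) : Set Hg := {h | Lip h ∧ ∀ x, x ∉ Λ → h x = ξ x}

theorem exists_out (Λ : Finset Pt) (v : Pt) : ∃ n : ℕ, n ≤ #Λ ∧ (v.1 + (n : ℤ), v.2) ∉ Λ := by
  by_contra hcon
  push Not at hcon
  have h1 : (Finset.range (#Λ + 1)).image (fun n : ℕ => (v.1 + (n : ℤ), v.2)) ⊆ Λ := by
    intro x hx
    obtain ⟨n, hn, rfl⟩ := Finset.mem_image.1 hx
    exact hcon n (Nat.lt_succ_iff.1 (Finset.mem_range.1 hn))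
  have h2 := Finset.card_le_card h1
  rw [Finset.card_image_of_injective, Finset.card_range] at h2
  · omega
  · intro a b hab
    have := congrArg Prod.fst hab
    simp only [add_right_inj, Nat.cast_inj] at this
    exact this

theorem lip_path {h : Hg} (hh : Lip h) (v : Pt) (n : ℕ) :
    |h v - h (v.1 + (n : ℤ), v.2)| ≤ 2 * n := by
  induction n with
  | zero => simp
  | succ n ih =>
    have h1 := hh.2 _ _ (adj_right v n)
    have h2 : |h v - h (v.1 + ((n + 1 : ℕ) : ℤ), v.2)| ≤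
        |h v - h (v.1 + (n : ℤ), v.2)| +
          |h (v.1 + (n : ℤ), v.2) - h (v.1 + ((n + 1 : ℕ) : ℤ), v.2)| := abs_sub_le _ _ _
    push_cast at h1 h2 ⊢
    linarith

theorem finite_fz (Λ : Finset Pt) (ξ : Hg) : (Fz Λ ξ).Finite := by
  classical
  set B : ℤ := ∑ x ∈ Λ, ∑ n ∈ Finset.range (#Λ + 1), |ξ (x.1 + (n : ℤ), x.2)| + 2 * #Λ with hB
  apply Set.Finite.of_finite_image (f := fun h : Hg => fun x : Λ => h x)
  · apply Set.Finite.subset (s := Set.pi Set.univ (fun _ : Λ => Set.Icc (-B) B))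
    · exact Set.Finite.pi fun _ => Set.finite_Icc _ _
    · rintro g ⟨h, hh, rfl⟩
      intro x _
      rw [Set.mem_Icc, ← abs_le]
      obtain ⟨n, hn, hout⟩ := exists_out Λ x.1
      have h1 := lip_path hh.1 x.1 n
      rw [hh.2 _ hout] at h1
      have h2 : |ξ (x.1.1 + (n : ℤ), x.1.2)| ≤
          ∑ x ∈ Λ, ∑ n ∈ Finset.range (#Λ + 1), |ξ (x.1 + (n : ℤ), x.2)| := by
        refine le_trans ?_ (Finset.single_le_sum (f := fun x : Pt =>
          ∑ n ∈ Finset.range (#Λ + 1), |ξ (x.1 + (n : ℤ), x.2)|)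
          (fun y _ => Finset.sum_nonneg fun _ _ => abs_nonneg _) x.2)
        exact Finset.single_le_sum (f := fun n : ℕ => |ξ (x.1.1 + (n : ℤ), x.1.2)|)
          (fun _ _ => abs_nonneg _) (Finset.mem_range.2 (Nat.lt_succ_of_le hn))
      have h3 : |h x.1| ≤ |h x.1 - ξ (x.1.1 + (n : ℤ), x.1.2)| + |ξ (x.1.1 + (n : ℤ), x.1.2)| := by
        have := abs_add_le (h x.1 - ξ (x.1.1 + (n : ℤ), x.1.2)) (ξ (x.1.1 + (n : ℤ), x.1.2))
        simpa using this
      have h4 : (n : ℤ) ≤ #Λ := by exact_mod_cast hn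
      show |h x.1| ≤ B
      linarith
  · intro h hh g hg hhg
    funext x
    by_cases hx : x ∈ Λ
    · exact congrFun hhg ⟨x, hx⟩
    · rw [hh.2 x hx, hg.2 x hx]

/-- The event that the clusters of `O` do not meet `S'`. -/
def Av (O : Set Pt) (S' : Finset Pt) : Set Hg := {h | ∀ x ∈ S', x ∉ Clu O h}

open Classical in
/-- The configurations with frozen outside in the event. -/
noncomputable def CF (Λ : Finset Pt) (ξ : Hg) (O : Set Pt) (S' : Finset Pt) : Finset Hg :=
  (finite_fz Λ ξ).toFinset.filter fun h => h ∈ Av O S'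

theorem mem_CF {Λ : Finset Pt} {ξ : Hg} {O : Set Pt} {S' : Finset Pt} {h : Hg} :
    h ∈ CF Λ ξ O S' ↔ h ∈ Fz Λ ξ ∧ h ∈ Av O S' := by
  classical
  simp [CF]

/-- What is assumed of the weight. -/
structure Wt (O : Set Pt) (S' : Finset Pt) (X : Hg → ℝ) : Prop where
  nonneg : ∀ h, 0 ≤ X h
  dep : ∀ h h' : Hg, (∀ x ∈ O, h x = h' x) → (∀ x, x ∉ S' → |h x| = |h' x|) → X h = X h'
  anti : ∀ h h' : Hg, (∀ x ∈ O, h x = h' x) → (∀ x, |h x| ≤ |h' x|) → X h' ≤ X h

variable {k : ℕ} {Λ S S' I : Finset Pt} {ξ : Hg} {O : Set Pt} {φ : Fin k → Pt → ℝ} {X : Hg → ℝ}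

open Classical in
/-- The unexplored part of `Λ`. -/
noncomputable def Un (Λ : Finset Pt) (O : Set Pt) (h : Hg) : Finset Pt :=
  Λ.filter fun x => x ∉ Clu O h

theorem coe_un (hO : ∀ x, x ∉ Λ → x ∈ O) (h : Hg) : ((Un Λ O h : Finset Pt) : Set Pt) =
    (Clu O h)ᶜ := by
  classical
  ext x
  simp only [Un, Finset.coe_filter, Set.mem_ofPred_eq, Set.mem_compl_iff, and_iff_right_iff_imp]
  intro hx
  by_contra hcon
  exact hx (subset_clu (hO x hcon))

/-- One explored set: the sum over the configurations is a sum over the explored part and the free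
ensemble on the rest. -/
theorem fiber (hO : ∀ x, x ∉ Λ → x ∈ O) (T : Finset Pt) (hT : T ⊆ Λ) (hS' : S' ⊆ T) :
    ∃ Y : Finset Hg, (∀ y ∈ Y, y ∈ Exp O ((T : Set Pt)ᶜ)) ∧ ∀ G : Hg → ℝ,
      ∑ h ∈ CF Λ ξ O S' with Un Λ O h = T, G h =
        ∑ y ∈ Y, ∑ z ∈ FreeF (innF T) T, G (comb ((T : Set Pt)ᶜ) y z) := by
  classical
  set κ : Set Pt := (T : Set Pt)ᶜ with hκ
  have hκc : κᶜ = (T : Set Pt) := by rw [hκ, compl_compl]
  set E : Finset Hg := (CF Λ ξ O S').filter fun h => Un Λ O h = T with hE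
  have hEmem : ∀ h, h ∈ E ↔ (Lip h ∧ Clu O h = κ) ∧ ∀ x, x ∉ Λ → h x = ξ x := by
    intro h
    rw [hE, Finset.mem_filter, mem_CF]
    constructor
    · rintro ⟨⟨h1, h2⟩, h3⟩
      refine ⟨⟨h1.1, ?_⟩, h1.2⟩
      have h4 := coe_un hO h
      rw [h3] at h4
      rw [hκ, h4, compl_compl]
    · rintro ⟨⟨h1, h2⟩, h3⟩
      have h4 : Un Λ O h = T := by
        apply Finset.coe_injective
        rw [coe_un hO, h2, hκc]
      refine ⟨⟨⟨h1, h3⟩, fun x hx => ?_⟩, h4⟩
      rw [h2, hκ]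
      exact fun h => h (hS' hx)
  set Y : Finset Hg := E.image fun h => comb κ h (fun _ => 1) with hY
  have hsplit : ∀ h ∈ E, comb κ h (fun _ => 1) ∈ Exp O κ ∧ comb κ (fun _ => 1) h ∈ Fre κᶜ := by
    intro h hh
    obtain ⟨⟨h1, h2⟩, -⟩ := (hEmem h).1 hh
    have hT' : ∀ x y, x ∈ κ → y ∉ κ → Adj x y → |h x| = 1 ∧ |h y| = 1 := by
      intro x y hx hy hxy
      rw [← h2] at hx hy
      exact closed_of_cross hx hy hxy
    exact ⟨⟨comb_mem_left h1 hT', clu_comb_left h2⟩, comb_mem_right h1 hT'⟩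
  have hYmem : ∀ y, y ∈ Y → y ∈ Exp O κ ∧ ∀ x, x ∉ Λ → y x = ξ x := by
    intro y hy
    obtain ⟨h, hh, rfl⟩ := Finset.mem_image.1 hy
    refine ⟨(hsplit h hh).1, fun x hx => ?_⟩
    have hxκ : x ∈ κ := by
      rw [hκ]
      exact fun h => hx (hT h)
    rw [comb_in hxκ]
    exact ((hEmem h).1 hh).2 x hx
  refine ⟨Y, fun y hy => (hYmem y hy).1, fun G => ?_⟩
  rw [← Finset.sum_product']
  symm
  have hfree : ∀ z, z ∈ FreeF (innF T) T ↔ z ∈ Fre κᶜ := by
    intro z
    rw [mem_free_inn, hκc]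
  refine Finset.sum_nbij' (i := fun p : Hg × Hg => comb κ p.1 p.2)
    (j := fun h => (comb κ h (fun _ => 1), comb κ (fun _ => 1) h)) ?_ ?_ ?_ ?_ ?_
  · rintro ⟨y, z⟩ hp
    obtain ⟨hy, hz⟩ := Finset.mem_product.1 hp
    simp only at hy hz
    obtain ⟨hy1, hy2⟩ := hYmem y hy
    have hz' := (hfree z).1 hz
    rw [hEmem]
    refine ⟨⟨lip_comb hy1.1 hz', clu_comb hy1.1 hy1.2 hz'⟩, fun x hx => ?_⟩
    have hxκ : x ∈ κ := by
      rw [hκ]
      exact fun h => hx (hT h)
    rw [comb_in hxκ]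
    exact hy2 x hx
  · intro h hh
    exact Finset.mem_product.2 ⟨Finset.mem_image_of_mem _ hh, (hfree _).2 (hsplit h hh).2⟩
  · rintro ⟨y, z⟩ hp
    obtain ⟨hy, hz⟩ := Finset.mem_product.1 hp
    simp only at hy hz
    exact Prod.ext (comb_self_left (hYmem y hy).1.1) (comb_self_right ((hfree z).1 hz))
  · intro h _
    exact comb_comb
  · intro p _
    rfl

theorem abs_comb_ab {κ : Set Pt} {y z : Hg} (x : Pt) :
    |comb κ y z x| = |comb κ y (ab z) x| := by
  by_cases hx : x ∈ κ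
  · rw [comb_in hx, comb_in hx]
  · rw [comb_out hx, comb_out hx, ab, abs_abs]

/-- The sandwich. -/
theorem sandwich (hO : ∀ x, x ∉ Λ → x ∈ O) (hS : ∀ x, x ∈ S ↔ x ∉ O) (hI : I ⊆ S')
    (hX : Wt O S' X) (hφ : ∀ i, ∀ x ∈ I, 0 ≤ φ i x) :
    Mo S' I φ * ∑ h ∈ CF Λ ξ O S', X h ≤ ∑ h ∈ CF Λ ξ O S', X h * pl I φ h ∧
    ∑ h ∈ CF Λ ξ O S', X h * pl I φ h ≤ Mo S I φ * ∑ h ∈ CF Λ ξ O S', X h := by
  classical
  have hmaps : ∀ h ∈ CF Λ ξ O S', Un Λ O h ∈ Λ.powerset := fun h _ =>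
    Finset.mem_powerset.2 (Finset.filter_subset _ _)
  rw [← Finset.sum_fiberwise_of_maps_to hmaps X,
    ← Finset.sum_fiberwise_of_maps_to hmaps fun h => X h * pl I φ h, Finset.mul_sum, Finset.mul_sum]
  have key : ∀ T ∈ Λ.powerset,
      Mo S' I φ * ∑ h ∈ CF Λ ξ O S' with Un Λ O h = T, X h ≤
        ∑ h ∈ CF Λ ξ O S' with Un Λ O h = T, X h * pl I φ h ∧
      ∑ h ∈ CF Λ ξ O S' with Un Λ O h = T, X h * pl I φ h ≤
        Mo S I φ * ∑ h ∈ CF Λ ξ O S' with Un Λ O h = T, X h := by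
    intro T hT
    have hTΛ := Finset.mem_powerset.1 hT
    by_cases hne : ∃ h ∈ CF Λ ξ O S', Un Λ O h = T
    · obtain ⟨h₀, hh₀, hUn⟩ := hne
      have hcoe := coe_un hO h₀
      rw [hUn] at hcoe
      have hS'T : S' ⊆ T := by
        intro x hx
        have h1 := (mem_CF.1 hh₀).2 x hx
        have h2 : x ∈ (T : Set Pt) := by rw [hcoe]; exact h1
        exact h2
      have hTS : T ⊆ S := by
        intro x hx
        have h2 : x ∈ (T : Set Pt) := hx
        rw [hcoe] at h2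
        exact (hS x).2 fun h => h2 (subset_clu h)
      have hOκ : O ⊆ (T : Set Pt)ᶜ := by
        intro x hx hxT
        exact (hS x).1 (hTS hxT) hx
      obtain ⟨Y, hY, hfib⟩ := fiber (ξ := ξ) hO T hTΛ hS'T
      rw [hfib, hfib]
      have hpl : ∀ y z : Hg, pl I φ (comb ((T : Set Pt)ᶜ) y z) = pl I φ z := by
        intro y z
        refine pl_congr fun x hx => comb_out fun h => h (hS'T (hI hx))
      have hab : ∀ y z : Hg, X (comb ((T : Set Pt)ᶜ) y z) =
          X (comb ((T : Set Pt)ᶜ) y (ab (ab z))) := by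
        intro y z
        refine hX.dep _ _ (fun x hx => ?_) fun x _ => ?_
        · rw [comb_in (hOκ hx), comb_in (hOκ hx)]
        · rw [← abs_comb_ab, ← abs_comb_ab]
      have e1 : ∑ y ∈ Y, ∑ z ∈ FreeF (innF T) T, X (comb ((T : Set Pt)ᶜ) y z) =
          ∑ y ∈ Y, ∑ z ∈ FreeF (innF T) T, X (comb ((T : Set Pt)ᶜ) y (ab (ab z))) :=
        Finset.sum_congr rfl fun y _ => Finset.sum_congr rfl fun z _ => hab y z
      have e2 : ∑ y ∈ Y, ∑ z ∈ FreeF (innF T) T, X (comb ((T : Set Pt)ᶜ) y z) *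
          pl I φ (comb ((T : Set Pt)ᶜ) y z) =
          ∑ y ∈ Y, ∑ z ∈ FreeF (innF T) T, X (comb ((T : Set Pt)ᶜ) y (ab (ab z))) *
            pl I φ z :=
        Finset.sum_congr rfl fun y _ => Finset.sum_congr rfl fun z _ => by rw [← hab, hpl]
      rw [e1, e2, Finset.mul_sum, Finset.mul_sum]
      constructor
      · refine Finset.sum_le_sum fun y _ => ?_
        refine lower hS'T hI hφ (fun a => X (comb ((T : Set Pt)ᶜ) y (ab a)))
          (fun a => hX.nonneg _) fun a b hab' => ?_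
        refine hX.dep _ _ (fun x hx => ?_) fun x hx => ?_
        · rw [comb_in (hOκ hx), comb_in (hOκ hx)]
        · by_cases hxκ : x ∈ (T : Set Pt)ᶜ
          · rw [comb_in hxκ, comb_in hxκ]
          · rw [comb_out hxκ, comb_out hxκ, ab, ab, hab' x hx]
      · refine Finset.sum_le_sum fun y _ => ?_
        refine upper hTS (hI.trans hS'T) hφ (fun a => X (comb ((T : Set Pt)ᶜ) y (ab a)))
          (fun a => hX.nonneg _) fun a b ha hab' => ?_
        refine hX.anti _ _ (fun x hx => ?_) fun x => ?_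
        · rw [comb_in (hOκ hx), comb_in (hOκ hx)]
        · by_cases hxκ : x ∈ (T : Set Pt)ᶜ
          · rw [comb_in hxκ, comb_in hxκ]
          · rw [comb_out hxκ, comb_out hxκ, ab, ab, abs_abs, abs_abs,
              abs_of_nonneg (zero_le_one.trans (ha x)),
              abs_of_nonneg (zero_le_one.trans ((ha x).trans (hab' x)))]
            exact hab' x
    · have hempty : (CF Λ ξ O S').filter (fun h => Un Λ O h = T) = ∅ := by
        rw [Finset.filter_eq_empty_iff]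
        intro h hh hUn
        exact hne ⟨h, hh, hUn⟩
      simp only [hempty, Finset.sum_empty, mul_zero, le_refl, and_self]
  exact ⟨Finset.sum_le_sum fun T hT => (key T hT).1, Finset.sum_le_sum fun T hT => (key T hT).2⟩

end Vale.Agent.P153.F
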